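import Vale.Agent.P153.R2.BESS.Chain

/-! # P153, block BESS: no fixed point (real or complex) is swallowed by the chain driven by `2B` -/

namespace Vale.Agent.P153.BESS

open MeasureTheory ProbabilityTheory Set Filter Topology
open scoped NNReal ENNReal ComplexConjugate

universe u

variable {Ω : Type u} [mΩ : MeasurableSpace Ω] {P : Measure Ω}

/-- The normalised increments of a Brownian motion along a grid. -/
lemma exists_noise {B : ℝ≥0 → Ω → ℝ} (hB : IsBrownianReal B P) {δ : ℝ} (hδ : 0 < δ) :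
    ∃ ξ : ℕ → Ω → ℝ, (∀ k, Measurable (ξ k)) ∧ iIndepFun ξ P ∧
      (∀ k, P.map (ξ k) = gaussianReal 0 1) ∧
      ∀ᵐ ω ∂P, ∀ k : ℕ, √δ * ξ k ω =
        B (((k + 1 : ℕ) : ℝ) * δ).toNNReal ω - B ((k : ℝ) * δ).toNNReal ω := by
  have hs : 0 < √δ := Real.sqrt_pos.2 hδ
  set t : ℕ → ℝ≥0 := fun k => ((k : ℝ) * δ).toNNReal with ht
  have htm : Monotone t := by
    intro a b hab
    apply Real.toNNReal_le_toNNReal
    have : (a : ℝ) ≤ b := Nat.cast_le.2 hab
    exact mul_le_mul_of_nonneg_right this hδ.le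
  have hpre := hB.toIsPreBrownianReal
  have hindep := hpre.hasIndepIncrements.nat htm
  set η : ℕ → Ω → ℝ := fun k ω => (B (t (k + 1)) ω - B (t k) ω) / √δ with hη
  have hηi : iIndepFun η P :=
    hindep.comp (fun _ x => x / √δ) (fun _ => measurable_id.div_const _)
  have hηm : ∀ k, AEMeasurable (η k) P := fun k =>
    ((hpre.aemeasurable _).sub (hpre.aemeasurable _)).div_const _
  have hηl : ∀ k, P.map (η k) = gaussianReal 0 1 := by
    intro k
    have h1 := hpre.hasLaw_sub (t (k + 1)) (t k)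
    have h2 := gaussianReal_div_const h1 (√δ)
    have h3 : η k = fun ω => (B (t (k + 1)) - B (t k)) ω / √δ := rfl
    rw [h3, h2.map_eq]
    have hd : nndist (t (k + 1) : ℝ) (t k : ℝ) = δ.toNNReal := by
      apply NNReal.eq
      rw [coe_nndist, Real.dist_eq, ht]
      simp only
      rw [Real.coe_toNNReal _ (by positivity), Real.coe_toNNReal _ (by positivity),
        Real.coe_toNNReal _ hδ.le]
      push_cast
      have : ((k : ℝ) + 1) * δ - k * δ = δ := by ring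
      rw [this, abs_of_pos hδ]
    have hd' : nndist (t (k + 1)).1 (t k).1 = δ.toNNReal := hd
    rw [hd']
    congr 1
    · simp
    · apply NNReal.eq
      rw [NNReal.coe_div, Real.coe_toNNReal _ hδ.le]
      change δ / (√δ) ^ 2 = 1
      rw [Real.sq_sqrt hδ.le]
      field_simp
  refine ⟨fun k => (hηm k).mk (η k), fun k => (hηm k).measurable_mk,
    hηi.congr fun k => (hηm k).ae_eq_mk, fun k => ?_, ?_⟩
  · rw [← hηl k]
    exact Measure.map_congr (hηm k).ae_eq_mk.symm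
  · have h1 : ∀ᵐ ω ∂P, ∀ k, η k ω = (hηm k).mk (η k) ω := ae_all_iff.2 fun k => (hηm k).ae_eq_mk
    filter_upwards [h1] with ω hω k
    rw [← hω k, hη]
    simp only
    rw [mul_div_cancel₀ _ hs.ne']

/-- The barrier tends to infinity. -/
lemma tendsto_Lb : Tendsto (fun j : ℕ => Lb (1 / ((j : ℝ) + 2))) atTop atTop := by
  have h1 : ∀ j : ℕ, Lb (1 / ((j : ℝ) + 2)) = Real.log ((j : ℝ) + 2) - 1 / 2 * Real.log 2 := by
    intro j
    have h0 : (0 : ℝ) < (j : ℝ) + 2 := by positivity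
    rw [Lb, Real.log_mul (by norm_num) (by positivity), Real.log_pow, one_div ((j : ℝ) + 2),
      Real.log_inv]
    push_cast
    ring
  simp only [h1]
  apply tendsto_atTop_add_const_right
  exact Real.tendsto_log_atTop.comp
    (tendsto_atTop_add_const_right _ _ tendsto_natCast_atTop_atTop)

/-- Up to an arbitrarily small probability the Euler chains stay away from the driver. -/
lemma not_alive_le {B : ℝ≥0 → Ω → ℝ} (hB : IsBrownianReal B P) {W : Ω → ℝ → ℝ}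
    (hW : ∀ᵐ ω ∂P, ∀ t : ℝ, 0 ≤ t → W ω t = 2 * B t.toNNReal ω) {z : ℂ} (hz : z ≠ 0) {T : ℝ}
    (hT : 0 < T) {ε : ℝ} (hε : 0 < ε) (hε1 : ε ≤ 1) (hL : 0 < Lb ε) :
    P {ω | ¬ ∃ g, CSol (W ω) z T g} ≤
      ENNReal.ofReal ((‖z‖ ^ 2 - Real.log ‖z‖ + 12 * T + 1) / Lb ε) := by
  have hprob : IsProbabilityMeasure P := hB.toIsPreBrownianReal.isGaussianProcess.isProbabilityMeasure
  have hδ : ∀ n : ℕ, 0 < T / ((n + 1 : ℕ) : ℝ) := fun n => by positivity
  choose ξ hξm hξi hξl hξe using fun n : ℕ => exists_noise hB (hδ n)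
  set F : ℕ → Set Ω := fun n =>
    {ω | ‖chain ε (T / ((n + 1 : ℕ) : ℝ)) z (ξ n) (n + 1) ω‖ < ε} with hF
  have hFb : ∀ᶠ n in atTop, P (F n) ≤
      ENNReal.ofReal ((‖z‖ ^ 2 - Real.log ‖z‖ + 12 * T + 1) / Lb ε) := by
    have ht : Tendsto (fun n : ℕ => T / ((n + 1 : ℕ) : ℝ)) atTop (𝓝 0) :=
      (tendsto_const_div_atTop_nhds_zero_nat T).comp (tendsto_add_atTop_nat 1)
    have hts : Tendsto (fun n : ℕ => (4 + 1352 * (1 + M4)) / ε ^ 4 *
        (T * √(T / ((n + 1 : ℕ) : ℝ)))) atTop (𝓝 0) := by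
      have h1 : Tendsto (fun n : ℕ => √(T / ((n + 1 : ℕ) : ℝ))) atTop (𝓝 0) := by
        have h0 := (Real.continuous_sqrt.tendsto 0).comp ht
        rw [Real.sqrt_zero] at h0
        exact h0
      have h2 := (h1.const_mul T).const_mul ((4 + 1352 * (1 + M4)) / ε ^ 4)
      rw [mul_zero, mul_zero] at h2
      exact h2
    filter_upwards [ht.eventually (ge_mem_nhds (show (0 : ℝ) < ε ^ 2 by positivity)),
      hts.eventually (ge_mem_nhds (show (0 : ℝ) < 1 by norm_num))] with n h1 h2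
    refine (chain_markov (hξm n) (hξi n) (hξl n) hε hε1 hL (hδ n) h1 z (n + 1)).trans ?_
    apply ENNReal.ofReal_le_ofReal
    refine div_le_div_of_nonneg_right ?_ hL.le
    have h3 : ((n + 1 : ℕ) : ℝ) * err ε (T / ((n + 1 : ℕ) : ℝ)) = 12 * T +
        (4 + 1352 * (1 + M4)) / ε ^ 4 * (T * √(T / ((n + 1 : ℕ) : ℝ))) := by
      have h4 : ((n + 1 : ℕ) : ℝ) * (T / ((n + 1 : ℕ) : ℝ)) = T := by
        field_simp
      rw [err]
      calc _ = 12 * (((n + 1 : ℕ) : ℝ) * (T / ((n + 1 : ℕ) : ℝ))) +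
          (4 + 1352 * (1 + M4)) / ε ^ 4 * ((((n + 1 : ℕ) : ℝ) * (T / ((n + 1 : ℕ) : ℝ))) *
            √(T / ((n + 1 : ℕ) : ℝ))) := by ring
        _ = _ := by rw [h4]
    have h5 := V_upper (ε := ε) hz
    rw [h3]
    linarith only [h2, h5]
  refine le_trans ?_ (measure_eventually_le hFb)
  have hall : ∀ᵐ ω ∂P, ∀ n : ℕ, ∀ k : ℕ, √(T / ((n + 1 : ℕ) : ℝ)) * ξ n k ω =
      B (((k + 1 : ℕ) : ℝ) * (T / ((n + 1 : ℕ) : ℝ))).toNNReal ω -
        B ((k : ℝ) * (T / ((n + 1 : ℕ) : ℝ))).toNNReal ω := ae_all_iff.2 hξe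
  apply measure_mono_ae
  filter_upwards [hall, hW, hB.cont, hB.toIsPreBrownianReal.eval_zero_ae_eq_zero] with ω h1 h2 h3 h4
  intro hbad
  by_contra hcon
  apply hbad
  have hWc : ContinuousOn (W ω) (Icc 0 T) := by
    have hc : Continuous fun t : ℝ => 2 * B t.toNNReal ω :=
      continuous_const.mul (h3.comp continuous_real_toNNReal)
    exact hc.continuousOn.congr fun t ht => h2 t ht.1
  have hW0 : W ω 0 = 0 := by
    rw [h2 0 le_rfl, Real.toNNReal_zero, h4, mul_zero]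
  have hfr : ∃ᶠ n : ℕ in atTop, ω ∉ F n := by
    intro hev
    refine hcon (show ∀ᶠ n in atTop, ω ∈ F n from ?_)
    filter_upwards [hev] with n hn
    exact not_not.1 hn
  obtain ⟨g, hg, -⟩ := euler_to_sol (W := W ω) (z := z) hT hε hWc (by
    rw [frequently_atTop] at hfr ⊢
    intro a
    obtain ⟨n, hn, hnF⟩ := hfr a
    refine ⟨n + 1, by omega, fun k => chain ε (T / ((n + 1 : ℕ) : ℝ)) z (ξ n) k ω, ?_, ?_⟩
    · rw [hW0]
      simp [chain]
    · obtain ⟨h5, h6⟩ := chain_alive hnF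
      refine ⟨h5, fun k hk => ?_⟩
      simp only
      rw [h6 k hk]
      congr 2
      rw [mul_assoc, h1 n k, h2 _ (by positivity), h2 _ (by positivity)]
      push_cast
      ring)
  exact ⟨g, hg⟩

/-- For a fixed time horizon. -/
theorem alive_fixed {B : ℝ≥0 → Ω → ℝ} (hB : IsBrownianReal B P) {W : Ω → ℝ → ℝ}
    (hW : ∀ᵐ ω ∂P, ∀ t : ℝ, 0 ≤ t → W ω t = 2 * B t.toNNReal ω) {z : ℂ} (hz : z ≠ 0) {T : ℝ}
    (hT : 0 < T) : ∀ᵐ ω ∂P, ∃ g, CSol (W ω) z T g := by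
  rw [ae_iff]
  have h1 : ∀ᶠ j : ℕ in atTop, P {ω | ¬ ∃ g, CSol (W ω) z T g} ≤
      ENNReal.ofReal ((‖z‖ ^ 2 - Real.log ‖z‖ + 12 * T + 1) / Lb (1 / ((j : ℝ) + 2))) := by
    filter_upwards [tendsto_Lb.eventually (eventually_gt_atTop 0)] with j hj
    refine not_alive_le hB hW hz hT (by positivity) ?_ hj
    rw [div_le_one (by positivity)]
    have : (0 : ℝ) ≤ j := Nat.cast_nonneg _
    linarith
  have h2 : Tendsto (fun j : ℕ => ENNReal.ofReal
      ((‖z‖ ^ 2 - Real.log ‖z‖ + 12 * T + 1) / Lb (1 / ((j : ℝ) + 2)))) atTop (𝓝 0) := by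
    have h3 := tendsto_Lb.const_div_atTop (‖z‖ ^ 2 - Real.log ‖z‖ + 12 * T + 1)
    have h4 := ENNReal.tendsto_ofReal h3
    rwa [ENNReal.ofReal_zero] at h4
  exact le_antisymm (ge_of_tendsto h2 h1) (zero_le)

lemma CSol.restrict {W : ℝ → ℝ} {z : ℂ} {T T' : ℝ} {g : ℝ → ℂ} (h : CSol W z T g) (hT : T' ≤ T) :
    CSol W z T' g :=
  ⟨h.1, fun s hs => ⟨(h.2 s ⟨hs.1, hs.2.trans hT⟩).1,
    (h.2 s ⟨hs.1, hs.2.trans hT⟩).2.mono (Icc_subset_Icc_right hT)⟩⟩

/-- **No fixed point is swallowed**, for all times. -/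
theorem alive {W : Ω → ℝ → ℝ} (hW : IsDriver4 P W) {z : ℂ} (hz : z ≠ 0) :
    ∀ᵐ ω ∂P, ∀ T : ℝ, ∃ g, CSol (W ω) z T g := by
  obtain ⟨B, hB, hWB⟩ := hW
  have h1 : ∀ᵐ ω ∂P, ∀ n : ℕ, ∃ g, CSol (W ω) z ((n : ℝ) + 1) g :=
    ae_all_iff.2 fun n => alive_fixed hB hWB hz (by positivity)
  filter_upwards [h1] with ω hω T
  obtain ⟨n, hn⟩ := exists_nat_ge T
  obtain ⟨g, hg⟩ := hω n
  exact ⟨g, hg.restrict (by linarith)⟩

end Vale.Agent.P153.BESS
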