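import Vale.Agent.P153.R2.BESS.Stmt

/-! # P153, block BESS: from Euler polygons which stay away from the driver to a true solution -/

namespace Vale.Agent.P153.BESS

open MeasureTheory ProbabilityTheory Set Filter Topology Vale.Agent.P164
open scoped NNReal ENNReal ComplexConjugate

/-- The field `2 / w`, regularised inside the disc of radius `ε`. -/
noncomputable def fld (ε : ℝ) (w : ℂ) : ℂ := 2 * conj w / ((max ‖w‖ ε : ℝ) : ℂ) ^ 2

lemma fld_eq {ε : ℝ} (hε : 0 < ε) {w : ℂ} (h : ε ≤ ‖w‖) : fld ε w = 2 / w := by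
  have hw : w ≠ 0 := by
    intro h0
    rw [h0, norm_zero] at h
    linarith
  have hn : (‖w‖ : ℂ) ^ 2 = w * conj w := by
    rw [Complex.mul_conj, Complex.normSq_eq_norm_sq]
    push_cast
    rfl
  have hc : conj w ≠ 0 := (map_ne_zero _).2 hw
  rw [fld, max_eq_left h, hn]
  field_simp

lemma fld_norm_le {ε : ℝ} (hε : 0 < ε) (w : ℂ) : ‖fld ε w‖ ≤ 2 / ε := by
  have hm : 0 < max ‖w‖ ε := lt_max_of_lt_right hε
  rw [fld, norm_div, norm_mul, norm_pow, Complex.norm_real, Complex.norm_ofNat, RCLike.norm_conj,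
    Real.norm_eq_abs, abs_of_pos hm]
  rw [div_le_div_iff₀ (by positivity) hε]
  have h1 : ‖w‖ ≤ max ‖w‖ ε := le_max_left _ _
  have h2 : ε ≤ max ‖w‖ ε := le_max_right _ _
  have h0 := norm_nonneg w
  nlinarith [mul_le_mul h1 h2 hε.le hm.le]

lemma fld_lip_aux {ε : ℝ} (hε : 0 < ε) (w w' : ℂ) :
    ‖fld ε w - fld ε w'‖ ≤ 6 / ε ^ 2 * ‖w - w'‖ := by
  set m : ℝ := max ‖w‖ ε with hm
  set m' : ℝ := max ‖w'‖ ε with hm'
  have hm0 : 0 < m := lt_max_of_lt_right hε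
  have hm0' : 0 < m' := lt_max_of_lt_right hε
  have hmc : (m : ℂ) ≠ 0 := Complex.ofReal_ne_zero.2 hm0.ne'
  have hmc' : (m' : ℂ) ≠ 0 := Complex.ofReal_ne_zero.2 hm0'.ne'
  have hεm : ε ≤ m := le_max_right _ _
  have hεm' : ε ≤ m' := le_max_right _ _
  have hwm' : ‖w'‖ ≤ m' := le_max_left _ _
  have hmm : |m' - m| ≤ ‖w - w'‖ := by
    have h1 := abs_max_sub_max_le_abs ‖w'‖ ‖w‖ ε
    rw [hm, hm']
    refine h1.trans ?_
    rw [norm_sub_rev]
    exact abs_norm_sub_norm_le w' w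
  have e1 : fld ε w - fld ε w' = 2 * (conj (w - w')) / (m : ℂ) ^ 2 +
      2 * conj w' * ((m' - m : ℝ) : ℂ) * ((m + m' : ℝ) : ℂ) / ((m : ℂ) ^ 2 * (m' : ℂ) ^ 2) := by
    rw [fld, fld, ← hm, ← hm', map_sub]
    push_cast
    field_simp
    ring
  have hA : ‖2 * (conj (w - w')) / (m : ℂ) ^ 2‖ ≤ 2 / ε ^ 2 * ‖w - w'‖ := by
    rw [norm_div, norm_mul, norm_pow, Complex.norm_real, Complex.norm_ofNat, RCLike.norm_conj,
      Real.norm_eq_abs, abs_of_pos hm0, mul_div_right_comm]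
    gcongr
  have hB : ‖2 * conj w' * ((m' - m : ℝ) : ℂ) * ((m + m' : ℝ) : ℂ) /
      ((m : ℂ) ^ 2 * (m' : ℂ) ^ 2)‖ ≤ 4 / ε ^ 2 * ‖w - w'‖ := by
    rw [norm_div, norm_mul, norm_mul, norm_mul, norm_mul, norm_pow, norm_pow, Complex.norm_real,
      Complex.norm_real, Complex.norm_real, Complex.norm_real, Complex.norm_ofNat,
      RCLike.norm_conj, Real.norm_eq_abs, Real.norm_eq_abs, Real.norm_eq_abs, Real.norm_eq_abs,
      abs_of_pos hm0, abs_of_pos hm0', abs_of_pos (add_pos hm0 hm0')]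
    have h1 : 2 * ‖w'‖ * |m' - m| * (m + m') ≤ 2 * m' * ‖w - w'‖ * (m + m') := by gcongr
    refine (div_le_div_of_nonneg_right h1 (by positivity)).trans ?_
    have e2 : 2 * m' * ‖w - w'‖ * (m + m') / (m ^ 2 * m' ^ 2) =
        (2 / (m * m') + 2 / m ^ 2) * ‖w - w'‖ := by
      field_simp
    rw [e2]
    have h2 : 2 / (m * m') ≤ 2 / (ε * ε) := by gcongr
    have h3 : 2 / m ^ 2 ≤ 2 / ε ^ 2 := by gcongr
    have h4 : 2 / (m * m') + 2 / m ^ 2 ≤ 4 / ε ^ 2 := by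
      have : 2 / (ε * ε) = 2 / ε ^ 2 := by rw [sq]
      have h5 : 4 / ε ^ 2 = 2 / ε ^ 2 + 2 / ε ^ 2 := by ring
      rw [h5]
      linarith
    exact mul_le_mul_of_nonneg_right h4 (norm_nonneg _)
  rw [e1]
  refine (norm_add_le _ _).trans ((add_le_add hA hB).trans (le_of_eq ?_))
  ring

/-- Global existence for bounded, globally Lipschitz fields. -/
lemma exists_global' {v : ℝ → ℂ → ℂ} {K L : ℝ≥0} {t : ℝ} (ht : 0 ≤ t)
    (hlip : ∀ s ∈ Icc 0 t, LipschitzWith K (v s))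
    (hcont : ∀ x, ContinuousOn (fun s => v s x) (Icc 0 t))
    (hb : ∀ s ∈ Icc 0 t, ∀ x, ‖v s x‖ ≤ L) (x₀ : ℂ) :
    ∃ α : ℝ → ℂ, α 0 = x₀ ∧ ∀ s ∈ Icc 0 t, HasDerivWithinAt α (v s (α s)) (Icc 0 t) s := by
  have hP : IsPicardLindelof v (tmin := 0) (tmax := t) ⟨0, ⟨le_rfl, ht⟩⟩ x₀
      (L * t.toNNReal) 0 L K :=
    { lipschitzOnWith := fun s hs => (hlip s hs).lipschitzOnWith
      continuousOn := fun x _ => hcont x
      norm_le := fun s hs x _ => hb s hs x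
      mul_max_le := by
        simp only [sub_zero, sub_self, ht, sup_of_le_left, NNReal.coe_mul, Real.coe_toNNReal',
          NNReal.coe_zero, Std.le_refl] }
  exact hP.exists_eq_forall_mem_Icc_hasDerivWithinAt₀

lemma fld_lip {ε : ℝ} (hε : 0 < ε) (c : ℂ) :
    LipschitzWith (6 / ε ^ 2).toNNReal (fun x : ℂ => fld ε (x - c)) := by
  refine LipschitzWith.of_dist_le_mul fun x y => ?_
  rw [dist_eq_norm, dist_eq_norm, Real.coe_toNNReal _ (by positivity)]
  refine (fld_lip_aux hε _ _).trans (le_of_eq ?_)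
  congr 2
  ring

lemma fld_continuous {ε : ℝ} (hε : 0 < ε) : Continuous (fld ε) := by
  have := (fld_lip hε 0).continuous
  simpa using this

/-- The regularised equation has a global solution. -/
lemma exists_reg {W : ℝ → ℝ} {T ε : ℝ} (hT : 0 ≤ T) (hε : 0 < ε) (hW : ContinuousOn W (Icc 0 T))
    (z : ℂ) : ∃ α : ℝ → ℂ, α 0 = z ∧
      ∀ s ∈ Icc 0 T, HasDerivWithinAt α (fld ε (α s - (W s : ℂ))) (Icc 0 T) s := by
  refine exists_global' (v := fun s x => fld ε (x - (W s : ℂ))) (K := (6 / ε ^ 2).toNNReal)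
    (L := (2 / ε).toNNReal) hT (fun s _ => fld_lip hε _) (fun x => ?_) (fun s _ x => ?_) z
  · exact (fld_continuous hε).comp_continuousOn
      (continuousOn_const.sub (Complex.continuous_ofReal.comp_continuousOn hW))
  · rw [Real.coe_toNNReal _ (by positivity)]
    exact fld_norm_le hε _

/-- A solution of the regularised equation which stays outside the disc is a true solution. -/
lemma CSol_of_reg {W : ℝ → ℝ} {T ε : ℝ} (hε : 0 < ε) {z : ℂ} {α : ℝ → ℂ} (h0 : α 0 = z)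
    (hα : ∀ s ∈ Icc 0 T, HasDerivWithinAt α (fld ε (α s - (W s : ℂ))) (Icc 0 T) s)
    (hfar : ∀ s ∈ Icc 0 T, ε ≤ ‖α s - (W s : ℂ)‖) : CSol W z T α := by
  refine ⟨h0, fun s hs => ⟨?_, ?_⟩⟩
  · intro h
    have := hfar s hs
    rw [h, sub_self, norm_zero] at this
    linarith
  · rw [← fld_eq hε (hfar s hs)]
    exact hα s hs

lemma reg_lip {W : ℝ → ℝ} {T ε : ℝ} (hε : 0 < ε) {α : ℝ → ℂ}
    (hα : ∀ s ∈ Icc 0 T, HasDerivWithinAt α (fld ε (α s - (W s : ℂ))) (Icc 0 T) s) {s t : ℝ}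
    (hs : s ∈ Icc 0 T) (ht : t ∈ Icc 0 T) : ‖α t - α s‖ ≤ 2 / ε * ‖t - s‖ :=
  (convex_Icc 0 T).norm_image_sub_le_of_norm_hasDerivWithin_le hα
    (fun x _ => fld_norm_le hε _) hs ht

/-- One step of the true regularised flow is close to one Euler step. -/
lemma reg_step {W : ℝ → ℝ} {T ε : ℝ} (hε : 0 < ε) {α : ℝ → ℂ}
    (hα : ∀ s ∈ Icc 0 T, HasDerivWithinAt α (fld ε (α s - (W s : ℂ))) (Icc 0 T) s) {s t ρ : ℝ}
    (hs : s ∈ Icc 0 T) (ht : t ∈ Icc 0 T) (hst : s ≤ t)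
    (hρ : ∀ u ∈ Icc s t, ‖α u - (W u : ℂ) - (α s - (W s : ℂ))‖ ≤ ρ) :
    ‖α t - (α s + ((t - s : ℝ) : ℂ) * fld ε (α s - (W s : ℂ)))‖ ≤ 6 / ε ^ 2 * ρ * (t - s) := by
  set c : ℂ := fld ε (α s - (W s : ℂ)) with hc
  have hsub : Icc s t ⊆ Icc 0 T := Icc_subset_Icc hs.1 ht.2
  have hd : ∀ u ∈ Icc s t, HasDerivWithinAt (fun u : ℝ => α u - (u : ℂ) * c)
      (fld ε (α u - (W u : ℂ)) - c) (Icc s t) u := by
    intro u hu
    have h1 := (hα u (hsub hu)).mono hsub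
    have h2 : HasDerivWithinAt (fun u : ℝ => (u : ℂ) * c) c (Icc s t) u := by
      have h3 : HasDerivAt (fun u : ℝ => (u : ℂ) * c) (1 * c) u :=
        (Complex.ofRealCLM.hasDerivAt (x := u)).mul_const c
      rw [one_mul] at h3
      exact h3.hasDerivWithinAt
    exact h1.sub h2
  have hb : ∀ u ∈ Icc s t, ‖fld ε (α u - (W u : ℂ)) - c‖ ≤ 6 / ε ^ 2 * ρ := by
    intro u hu
    refine (fld_lip_aux hε _ _).trans ?_
    exact mul_le_mul_of_nonneg_left (hρ u hu) (by positivity)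
  have key := (convex_Icc s t).norm_image_sub_le_of_norm_hasDerivWithin_le hd hb
    (left_mem_Icc.2 hst) (right_mem_Icc.2 hst)
  rw [Real.norm_eq_abs, abs_of_nonneg (sub_nonneg.2 hst)] at key
  refine le_trans (le_of_eq ?_) key
  congr 1
  push_cast
  ring

/-- **Euler polygons that stay away from the driver produce a solution.** -/
theorem euler_to_sol {W : ℝ → ℝ} {T ε : ℝ} (hT : 0 < T) (hε : 0 < ε)
    (hW : ContinuousOn W (Icc 0 T)) {z : ℂ}
    (hfreq : ∃ᶠ n : ℕ in atTop, ∃ Y : ℕ → ℂ, Y 0 = z - (W 0 : ℂ) ∧ (∀ k ≤ n, ε ≤ ‖Y k‖) ∧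
      ∀ k < n, Y (k + 1) = Y k + 2 * ((T / n : ℝ) : ℂ) / Y k -
        ((W ((k + 1 : ℕ) * (T / n)) - W (k * (T / n)) : ℝ) : ℂ)) :
    ∃ g, CSol W z T g ∧ ∀ s ∈ Icc 0 T, ε ≤ ‖g s - (W s : ℂ)‖ := by
  obtain ⟨α, h0, hα⟩ := exists_reg hT.le hε hW z
  suffices hfar : ∀ s ∈ Icc 0 T, ε ≤ ‖α s - (W s : ℂ)‖ from
    ⟨α, CSol_of_reg hε h0 hα hfar, hfar⟩
  set L : ℝ := 6 / ε ^ 2 with hL
  have hL0 : 0 < L := by positivity
  set E : ℝ := Real.exp (L * T) with hE
  have hE0 : 0 < E := Real.exp_pos _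
  -- it suffices to have the bound up to an arbitrarily small error
  suffices H : ∀ η > 0, ∀ s ∈ Icc 0 T, ε - η * (E + 1) ≤ ‖α s - (W s : ℂ)‖ by
    intro s hs
    by_contra hcon
    push Not at hcon
    have h1 := H ((ε - ‖α s - (W s : ℂ)‖) / (2 * (E + 1)))
      (div_pos (by linarith) (by positivity)) s hs
    have h2 : (ε - ‖α s - (W s : ℂ)‖) / (2 * (E + 1)) * (E + 1) =
        (ε - ‖α s - (W s : ℂ)‖) / 2 := by
      field_simp
    rw [h2] at h1
    linarith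
  intro η hη s hs
  -- uniform continuity
  have huc := isCompact_Icc.uniformContinuousOn_of_continuous hW
  rw [Metric.uniformContinuousOn_iff] at huc
  obtain ⟨d, hd, hdW⟩ := huc (η / 2) (by positivity)
  have hev : ∀ᶠ n : ℕ in atTop, 0 < n ∧ T / n < d ∧ 2 / ε * (T / n) ≤ η / 2 := by
    have ht : Tendsto (fun n : ℕ => T / (n : ℝ)) atTop (𝓝 0) :=
      tendsto_const_div_atTop_nhds_zero_nat T
    have ht2 : Tendsto (fun n : ℕ => 2 / ε * (T / (n : ℝ))) atTop (𝓝 0) := by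
      simpa using ht.const_mul (2 / ε)
    filter_upwards [eventually_gt_atTop 0, ht.eventually (gt_mem_nhds hd),
      ht2.eventually (ge_mem_nhds (show (0 : ℝ) < η / 2 by positivity))] with n h1 h2 h3
    exact ⟨h1, h2, h3⟩
  obtain ⟨n, ⟨Y, hY0, hYε, hYs⟩, hn0, hnd, hnη⟩ := (hfreq.and_eventually hev).exists
  have hn0' : (0 : ℝ) < n := Nat.cast_pos.2 hn0
  set δ : ℝ := T / n with hδ
  have hδ0 : 0 < δ := by positivity
  have hnδ : (n : ℝ) * δ = T := by rw [hδ]; field_simp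
  have hmem : ∀ k ≤ n, (k : ℝ) * δ ∈ Icc 0 T := by
    intro k hk
    refine ⟨by positivity, ?_⟩
    rw [← hnδ]
    exact mul_le_mul_of_nonneg_right (Nat.cast_le.2 hk) hδ0.le
  -- oscillation of the difference over short times
  have hosc : ∀ a ∈ Icc 0 T, ∀ b ∈ Icc 0 T, |b - a| ≤ δ →
      ‖α b - (W b : ℂ) - (α a - (W a : ℂ))‖ ≤ η := by
    intro a ha b hb hab
    have h1 : ‖α b - α a‖ ≤ η / 2 := by
      refine (reg_lip hε hα ha hb).trans (le_trans ?_ hnη)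
      rw [Real.norm_eq_abs]
      exact mul_le_mul_of_nonneg_left hab (by positivity)
    have h2 : |W b - W a| ≤ η / 2 := by
      have := hdW b hb a ha (by rw [Real.dist_eq]; exact hab.trans_lt hnd)
      rw [Real.dist_eq] at this
      exact this.le
    have e : α b - (W b : ℂ) - (α a - (W a : ℂ)) = (α b - α a) - ((W b - W a : ℝ) : ℂ) := by
      push_cast
      ring
    rw [e]
    refine (norm_sub_le _ _).trans ?_
    rw [Complex.norm_real, Real.norm_eq_abs]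
    linarith
  -- discrete Gronwall
  have hG : ∀ k ≤ n, ‖Y k - (α (k * δ) - (W (k * δ) : ℂ))‖ ≤ η * ((1 + L * δ) ^ k - 1) := by
    intro k
    induction k with
    | zero =>
      intro _
      simp [hY0, h0]
    | succ k ih =>
      intro hk
      have hk' : k < n := hk
      have ihk := ih hk'.le
      have hkm := hmem k hk'.le
      have hkm1 := hmem (k + 1) hk
      have hle : (k : ℝ) * δ ≤ ((k + 1 : ℕ) : ℝ) * δ := by
        push_cast
        nlinarith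
      have hdiff : ((k + 1 : ℕ) : ℝ) * δ - (k : ℝ) * δ = δ := by
        push_cast
        ring
      have hstep := reg_step hε hα hkm hkm1 hle (ρ := η) (by
        intro u hu
        refine hosc _ hkm u ⟨hkm.1.trans hu.1, hu.2.trans hkm1.2⟩ ?_
        rw [abs_of_nonneg (by linarith [hu.1])]
        linarith [hu.2])
      rw [hdiff] at hstep
      have hYf : 2 / Y k = fld ε (Y k) := (fld_eq hε (hYε k hk'.le)).symm
      have e1 : Y (k + 1) - (α ((k + 1 : ℕ) * δ) - (W ((k + 1 : ℕ) * δ) : ℂ)) =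
          (Y k - (α (k * δ) - (W (k * δ) : ℂ))) +
          (δ : ℂ) * (fld ε (Y k) - fld ε (α (k * δ) - (W (k * δ) : ℂ))) -
          (α ((k + 1 : ℕ) * δ) - (α (k * δ) + (δ : ℂ) * fld ε (α (k * δ) - (W (k * δ) : ℂ)))) := by
        rw [hYs k hk', ← hYf]
        push_cast
        ring
      rw [e1]
      refine (norm_sub_le _ _).trans ?_
      have h2 : ‖(Y k - (α (k * δ) - (W (k * δ) : ℂ))) +
          (δ : ℂ) * (fld ε (Y k) - fld ε (α (k * δ) - (W (k * δ) : ℂ)))‖ ≤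
          (1 + L * δ) * (η * ((1 + L * δ) ^ k - 1)) := by
        refine (norm_add_le _ _).trans ?_
        rw [norm_mul, Complex.norm_real, Real.norm_eq_abs, abs_of_pos hδ0]
        have h3 := fld_lip_aux hε (Y k) (α (k * δ) - (W (k * δ) : ℂ))
        have h4 : ‖Y k - (α (k * δ) - (W (k * δ) : ℂ))‖ +
            δ * ‖fld ε (Y k) - fld ε (α (k * δ) - (W (k * δ) : ℂ))‖ ≤
            (1 + L * δ) * ‖Y k - (α (k * δ) - (W (k * δ) : ℂ))‖ := by
          have := mul_le_mul_of_nonneg_left h3 hδ0.le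
          rw [← hL] at this
          linarith
        exact h4.trans (mul_le_mul_of_nonneg_left ihk (by positivity))
      refine (add_le_add h2 hstep).trans (le_of_eq ?_)
      rw [← hL]
      ring
  have hpow : ∀ k ≤ n, (1 + L * δ) ^ k - 1 ≤ E := by
    intro k hk
    have h1 : (1 + L * δ) ≤ Real.exp (L * δ) := by
      have := Real.add_one_le_exp (L * δ)
      linarith
    have h2 : (1 + L * δ) ^ k ≤ Real.exp (L * δ) ^ k := pow_le_pow_left₀ (by positivity) h1 k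
    have h3 : Real.exp (L * δ) ^ k ≤ E := by
      rw [← Real.exp_nat_mul, hE]
      refine Real.exp_le_exp.2 ?_
      have := (hmem k hk).2
      nlinarith
    linarith
  -- the grid point below `s`
  set k : ℕ := ⌊s / δ⌋₊ with hk
  have hkle : (k : ℝ) * δ ≤ s := by
    have := Nat.floor_le (div_nonneg hs.1 hδ0.le)
    rwa [← hk, le_div_iff₀ hδ0] at this
  have hklt : s < (k + 1) * δ := by
    have := Nat.lt_floor_add_one (s / δ)
    rwa [← hk, div_lt_iff₀ hδ0] at this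
  have hkn : k ≤ n := by
    by_contra hcon
    push Not at hcon
    have h1 : ((n : ℝ) + 1) ≤ k := by exact_mod_cast hcon
    have h2 : ((n : ℝ) + 1) * δ ≤ k * δ := mul_le_mul_of_nonneg_right h1 hδ0.le
    have h3 := hs.2
    nlinarith
  have h1 := hosc _ (hmem k hkn) s hs (by
    rw [abs_of_nonneg (by linarith)]
    linarith)
  have h2 := (hG k hkn).trans (mul_le_mul_of_nonneg_left (hpow k hkn) hη.le)
  have h3 := hYε k hkn
  have h4 : ‖Y k‖ ≤ ‖α s - (W s : ℂ)‖ + ‖α s - (W s : ℂ) - (α (k * δ) - (W (k * δ) : ℂ))‖ +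
      ‖Y k - (α (k * δ) - (W (k * δ) : ℂ))‖ := by
    have e : Y k = (α s - (W s : ℂ)) - (α s - (W s : ℂ) - (α (k * δ) - (W (k * δ) : ℂ))) +
      (Y k - (α (k * δ) - (W (k * δ) : ℂ))) := by ring
    calc ‖Y k‖ = ‖(α s - (W s : ℂ)) - (α s - (W s : ℂ) - (α (k * δ) - (W (k * δ) : ℂ))) +
      (Y k - (α (k * δ) - (W (k * δ) : ℂ)))‖ := by rw [← e]
      _ ≤ _ := (norm_add_le _ _).trans (add_le_add (norm_sub_le _ _) le_rfl)
  nlinarith

end Vale.Agent.P153.BESS
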