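import Vale.Agent.P153.R2.BESS.StepInt
import Vale.Agent.P153.R2.BESS.Euler

/-! # P153, block BESS: the Euler chain driven by i.i.d. Gaussian steps -/

namespace Vale.Agent.P153.BESS

open MeasureTheory ProbabilityTheory Set Filter Topology
open scoped NNReal ENNReal ComplexConjugate

universe u

variable {Ω : Type u} [mΩ : MeasurableSpace Ω] {P : Measure Ω}

/-- One step of the chain, frozen once it has entered the disc of radius `ε`. -/
noncomputable def step (ε δ : ℝ) (y : ℂ) (x : ℝ) : ℂ :=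
  if ‖y‖ < ε then y else y + 2 * (δ : ℂ) / y - ((2 * √δ * x : ℝ) : ℂ)

/-- The chain. -/
noncomputable def chain (ε δ : ℝ) (z : ℂ) (ξ : ℕ → Ω → ℝ) : ℕ → Ω → ℂ
  | 0 => fun _ => z
  | k + 1 => fun ω => step ε δ (chain ε δ z ξ k ω) (ξ k ω)

lemma step_measurable (ε δ : ℝ) : Measurable (fun q : ℂ × ℝ => step ε δ q.1 q.2) := by
  unfold step
  refine Measurable.ite ?_ measurable_fst ?_
  · exact measurableSet_lt (measurable_fst.norm) measurable_const
  · exact (measurable_fst.add (measurable_const.div measurable_fst)).sub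
      (Complex.measurable_ofReal.comp (measurable_snd.const_mul _))

/-- The past of the noise. -/
@[reducible] def pastN (ξ : ℕ → Ω → ℝ) (k : ℕ) : MeasurableSpace Ω :=
  ⨆ j ∈ Iio k, MeasurableSpace.comap (ξ j) inferInstance

omit mΩ in
lemma pastN_mono (ξ : ℕ → Ω → ℝ) {k l : ℕ} (h : k ≤ l) : pastN ξ k ≤ pastN ξ l :=
  biSup_mono fun _ hi => lt_of_lt_of_le hi h

omit mΩ in
lemma measurable_pastN (ξ : ℕ → Ω → ℝ) (k : ℕ) : Measurable[pastN ξ (k + 1)] (ξ k) := by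
  have h : MeasurableSpace.comap (ξ k) inferInstance ≤ pastN ξ (k + 1) :=
    le_biSup (fun j => MeasurableSpace.comap (ξ j) inferInstance) (mem_Iio.2 k.lt_succ_self)
  exact (comap_measurable (ξ k)).mono h le_rfl

lemma chain_pastN (ε δ : ℝ) (z : ℂ) (ξ : ℕ → Ω → ℝ) (k : ℕ) :
    Measurable[pastN ξ k] (chain ε δ z ξ k) := by
  induction k with
  | zero => exact measurable_const
  | succ k ih =>
    have h1 : Measurable[pastN ξ (k + 1)] (chain ε δ z ξ k) := ih.mono (pastN_mono ξ k.le_succ) le_rfl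
    have h2 := measurable_pastN ξ k
    exact (step_measurable ε δ).comp (h1.prodMk h2)

lemma chain_measurable {ξ : ℕ → Ω → ℝ} (hm : ∀ k, Measurable (ξ k)) (ε δ : ℝ) (z : ℂ) (k : ℕ) :
    Measurable (chain ε δ z ξ k) :=
  (chain_pastN ε δ z ξ k).mono (iSup₂_le fun j _ => (hm j).comap_le) le_rfl

lemma chain_indep {ξ : ℕ → Ω → ℝ} (hm : ∀ k, Measurable (ξ k)) (hi : iIndepFun ξ P)
    (ε δ : ℝ) (z : ℂ) (k : ℕ) : IndepFun (chain ε δ z ξ k) (ξ k) P := by
  have h1 : Indep (⨆ j ∈ Iio k, MeasurableSpace.comap (ξ j) inferInstance)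
      (⨆ j ∈ ({k} : Set ℕ), MeasurableSpace.comap (ξ j) inferInstance) P :=
    indep_iSup_of_disjoint (fun j => (hm j).comap_le) hi.iIndep
      (by rw [Set.disjoint_singleton_right]; simp)
  rw [IndepFun_iff_Indep]
  refine indep_of_indep_of_le_left (indep_of_indep_of_le_right h1 ?_) ?_
  · exact le_biSup (fun j => MeasurableSpace.comap (ξ j) inferInstance) (mem_singleton k)
  · exact (chain_pastN ε δ z ξ k).comap_le

/-- The error in one step. -/
noncomputable def err (ε δ : ℝ) : ℝ := 12 * δ + (4 + 1352 * (1 + M4)) / ε ^ 4 * (δ * √δ)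

lemma err_nonneg {ε δ : ℝ} (hδ : 0 ≤ δ) : 0 ≤ err ε δ := by
  have := M4_nonneg
  unfold err
  positivity

lemma step_int {ε δ : ℝ} (hε : 0 < ε) (hε1 : ε ≤ 1) (hδ : 0 < δ) (hδε : δ ≤ ε ^ 2) (y : ℂ) :
    ∫⁻ x, ENNReal.ofReal (V ε (step ε δ y x)) ∂(gaussianReal 0 1) ≤
      ENNReal.ofReal (V ε y) + ENNReal.ofReal (err ε δ) := by
  by_cases hy : ‖y‖ < ε
  · have : ∀ x, step ε δ y x = y := fun x => by rw [step, if_pos hy]
    simp only [this, lintegral_const, measure_univ, mul_one]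
    exact le_self_add
  · have : ∀ x, step ε δ y x = y + 2 * (δ : ℂ) / y - ((2 * √δ * x : ℝ) : ℂ) := fun x => by
      rw [step, if_neg hy]
    simp only [this]
    rw [← ENNReal.ofReal_add (V_nonneg hε hε1 _) (err_nonneg hδ.le)]
    exact V_int hε hε1 hδ hδε (not_lt.1 hy)

lemma chain_step [IsProbabilityMeasure P] {ξ : ℕ → Ω → ℝ} (hm : ∀ k, Measurable (ξ k))
    (hi : iIndepFun ξ P) (hl : ∀ k, P.map (ξ k) = gaussianReal 0 1) {ε δ : ℝ} (hε : 0 < ε)
    (hε1 : ε ≤ 1) (hδ : 0 < δ) (hδε : δ ≤ ε ^ 2) (z : ℂ) (k : ℕ) :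
    ∫⁻ ω, ENNReal.ofReal (V ε (chain ε δ z ξ (k + 1) ω)) ∂P ≤
      ∫⁻ ω, ENNReal.ofReal (V ε (chain ε δ z ξ k ω)) ∂P + ENNReal.ofReal (err ε δ) := by
  have hc := chain_measurable hm ε δ z k
  have hF : Measurable fun q : ℂ × ℝ => ENNReal.ofReal (V ε (step ε δ q.1 q.2)) :=
    ENNReal.measurable_ofReal.comp ((V_measurable ε).comp (step_measurable ε δ))
  have hV : Measurable fun y : ℂ => ENNReal.ofReal (V ε y) :=
    ENNReal.measurable_ofReal.comp (V_measurable ε)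
  have hpr := (indepFun_iff_map_prod_eq_prod_map_map hc.aemeasurable (hm k).aemeasurable).1
    (chain_indep hm hi ε δ z k)
  have : IsProbabilityMeasure (P.map (chain ε δ z ξ k)) :=
    Measure.isProbabilityMeasure_map hc.aemeasurable
  calc ∫⁻ ω, ENNReal.ofReal (V ε (chain ε δ z ξ (k + 1) ω)) ∂P
      = ∫⁻ q, ENNReal.ofReal (V ε (step ε δ q.1 q.2))
          ∂(P.map (fun ω => (chain ε δ z ξ k ω, ξ k ω))) := by
        rw [lintegral_map hF (hc.prodMk (hm k))]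
        rfl
    _ = ∫⁻ y, ∫⁻ x, ENNReal.ofReal (V ε (step ε δ y x)) ∂(gaussianReal 0 1)
          ∂(P.map (chain ε δ z ξ k)) := by
        rw [hpr, hl k, lintegral_prod _ hF.aemeasurable]
    _ ≤ ∫⁻ y, (ENNReal.ofReal (V ε y) + ENNReal.ofReal (err ε δ)) ∂(P.map (chain ε δ z ξ k)) :=
        lintegral_mono fun y => step_int hε hε1 hδ hδε y
    _ = _ := by
        rw [lintegral_add_right _ measurable_const, lintegral_const, measure_univ, mul_one,
          lintegral_map hV hc]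

theorem chain_bound [IsProbabilityMeasure P] {ξ : ℕ → Ω → ℝ} (hm : ∀ k, Measurable (ξ k))
    (hi : iIndepFun ξ P) (hl : ∀ k, P.map (ξ k) = gaussianReal 0 1) {ε δ : ℝ} (hε : 0 < ε)
    (hε1 : ε ≤ 1) (hδ : 0 < δ) (hδε : δ ≤ ε ^ 2) (z : ℂ) (n : ℕ) :
    ∫⁻ ω, ENNReal.ofReal (V ε (chain ε δ z ξ n ω)) ∂P ≤
      ENNReal.ofReal (V ε z + n * err ε δ) := by
  have he := err_nonneg (ε := ε) hδ.le
  induction n with
  | zero => simp [chain]
  | succ n ih =>
    refine (chain_step hm hi hl hε hε1 hδ hδε z n).trans ?_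
    refine (add_le_add ih le_rfl).trans (le_of_eq ?_)
    rw [← ENNReal.ofReal_add _ he]
    · congr 1
      push_cast
      ring
    · have := V_nonneg hε hε1 z
      positivity

/-- The barrier. -/
noncomputable def Lb (ε : ℝ) : ℝ := -(1 / 2 * Real.log (2 * ε ^ 2))

/-- Probability of ever entering the disc. -/
theorem chain_markov [IsProbabilityMeasure P] {ξ : ℕ → Ω → ℝ} (hm : ∀ k, Measurable (ξ k))
    (hi : iIndepFun ξ P) (hl : ∀ k, P.map (ξ k) = gaussianReal 0 1) {ε δ : ℝ} (hε : 0 < ε)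
    (hε1 : ε ≤ 1) (hL : 0 < Lb ε) (hδ : 0 < δ) (hδε : δ ≤ ε ^ 2) (z : ℂ) (n : ℕ) :
    P {ω | ‖chain ε δ z ξ n ω‖ < ε} ≤ ENNReal.ofReal ((V ε z + n * err ε δ) / Lb ε) := by
  have h1 := chain_bound hm hi hl hε hε1 hδ hδε z n
  have hV : Measurable fun ω => ENNReal.ofReal (V ε (chain ε δ z ξ n ω)) :=
    ENNReal.measurable_ofReal.comp ((V_measurable ε).comp (chain_measurable hm ε δ z n))
  have hsub : {ω | ‖chain ε δ z ξ n ω‖ < ε} ⊆
      {ω | ENNReal.ofReal (Lb ε) ≤ ENNReal.ofReal (V ε (chain ε δ z ξ n ω))} := fun ω hω =>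
    ENNReal.ofReal_le_ofReal (V_lower hε hω)
  refine (measure_mono hsub).trans ?_
  refine (meas_ge_le_lintegral_div hV.aemeasurable ?_ ENNReal.ofReal_ne_top).trans ?_
  · simpa using hL
  · rw [ENNReal.ofReal_div_of_pos hL]
    exact ENNReal.div_le_div_right h1 _

/-- Once in the disc the chain is frozen. -/
lemma chain_frozen {ε δ : ℝ} {z : ℂ} {ξ : ℕ → Ω → ℝ} {k : ℕ} {ω : Ω}
    (h : ‖chain ε δ z ξ k ω‖ < ε) {n : ℕ} (hn : k ≤ n) : ‖chain ε δ z ξ n ω‖ < ε := by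
  induction n, hn using Nat.le_induction with
  | base => exact h
  | succ n _ ih =>
    have : chain ε δ z ξ (n + 1) ω = chain ε δ z ξ n ω := by
      change step ε δ (chain ε δ z ξ n ω) (ξ n ω) = _
      unfold step
      rw [if_pos ih]
    rw [this]
    exact ih

lemma chain_alive {ε δ : ℝ} {z : ℂ} {ξ : ℕ → Ω → ℝ} {n : ℕ} {ω : Ω}
    (h : ¬ ‖chain ε δ z ξ n ω‖ < ε) : (∀ k ≤ n, ε ≤ ‖chain ε δ z ξ k ω‖) ∧
      ∀ k < n, chain ε δ z ξ (k + 1) ω = chain ε δ z ξ k ω + 2 * (δ : ℂ) / chain ε δ z ξ k ω -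
        ((2 * √δ * ξ k ω : ℝ) : ℂ) := by
  have h1 : ∀ k ≤ n, ε ≤ ‖chain ε δ z ξ k ω‖ := by
    intro k hk
    by_contra hcon
    exact h (chain_frozen (not_le.1 hcon) hk)
  refine ⟨h1, fun k hk => ?_⟩
  change step ε δ (chain ε δ z ξ k ω) (ξ k ω) = _
  unfold step
  rw [if_neg (not_lt.2 (h1 k hk.le))]

/-- If every event in the tail has small probability then so has the event that they all occur eventually. -/
lemma measure_eventually_le {F : ℕ → Set Ω} {b : ℝ≥0∞} (h : ∀ᶠ n in atTop, P (F n) ≤ b) :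
    P {ω | ∀ᶠ n in atTop, ω ∈ F n} ≤ b := by
  obtain ⟨N0, hN0⟩ := eventually_atTop.1 h
  have e : {ω | ∀ᶠ n in atTop, ω ∈ F n} = ⋃ N : ℕ, {ω | ∀ n, N ≤ n → ω ∈ F n} := by
    ext ω
    simp only [mem_ofPred_eq, eventually_atTop, mem_iUnion]
  rw [e]
  have hmono : Monotone fun N : ℕ => {ω | ∀ n, N ≤ n → ω ∈ F n} := by
    intro a c hac ω hω n hn
    exact hω n (hac.trans hn)
  rw [hmono.measure_iUnion]
  refine iSup_le fun N => ?_
  refine (measure_mono (fun ω hω => ?_)).trans (hN0 (max N N0) (le_max_right _ _))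
  exact hω _ (le_max_left _ _)

end Vale.Agent.P153.BESS
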