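import Vale.Agent.P153.R2.BESS.Euler

/-! # P153, block BESS: deterministic facts on the Loewner equation with a continuous driver -/

namespace Vale.Agent.P153.BESS

open Set Filter Topology Vale.Agent.P164
open scoped NNReal ENNReal ComplexConjugate

/-- Solution of the regularised equation on `[0,T]`. -/
def Reg (W : ℝ → ℝ) (ε T : ℝ) (α : ℝ → ℂ) : Prop :=
  ∀ s ∈ Icc 0 T, HasDerivWithinAt α (fld ε (α s - (W s : ℂ))) (Icc 0 T) s

lemma Reg.cont {W : ℝ → ℝ} {ε T : ℝ} {α : ℝ → ℂ} (h : Reg W ε T α) : ContinuousOn α (Icc 0 T) :=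
  fun s hs => (h s hs).continuousWithinAt

lemma Reg.right {W : ℝ → ℝ} {ε T : ℝ} {α : ℝ → ℂ} (h : Reg W ε T α) :
    ∀ s ∈ Ico 0 T, HasDerivWithinAt α (fld ε (α s - (W s : ℂ))) (Ici s) s := by
  intro s hs
  have h1 := h s ⟨hs.1, hs.2.le⟩
  exact (h1.mono (Icc_subset_Icc_left hs.1)).mono_of_mem_nhdsWithin (Icc_mem_nhdsGE hs.2)

lemma Reg.left {W : ℝ → ℝ} {ε T : ℝ} {α : ℝ → ℂ} (h : Reg W ε T α) :
    ∀ s ∈ Ioc 0 T, HasDerivWithinAt α (fld ε (α s - (W s : ℂ))) (Iic s) s := by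
  intro s hs
  have h1 := h s ⟨hs.1.le, hs.2⟩
  exact (h1.mono (Icc_subset_Icc_right hs.2)).mono_of_mem_nhdsWithin (Icc_mem_nhdsLE hs.1)

lemma Reg.restrict {W : ℝ → ℝ} {ε T T' : ℝ} {α : ℝ → ℂ} (h : Reg W ε T α) (hT : T' ≤ T) :
    Reg W ε T' α :=
  fun s hs => (h s ⟨hs.1, hs.2.trans hT⟩).mono (Icc_subset_Icc_right hT)

/-- Continuous dependence on the starting point. -/
lemma Reg.dist_le {W : ℝ → ℝ} {ε T δ : ℝ} (hε : 0 < ε) {α β : ℝ → ℂ} (hα : Reg W ε T α)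
    (hβ : Reg W ε T β) (h : dist (α 0) (β 0) ≤ δ) {s : ℝ} (hs : s ∈ Icc 0 T) :
    dist (α s) (β s) ≤ δ * Real.exp (6 / ε ^ 2 * s) := by
  have := dist_le_of_trajectories_ODE (v := fun s x => fld ε (x - (W s : ℂ)))
    (K := (6 / ε ^ 2).toNNReal) (fun s => fld_lip hε _) hα.cont hα.right hβ.cont hβ.right h s hs
  rwa [Real.coe_toNNReal _ (by positivity), sub_zero] at this

/-- Forward uniqueness. -/
lemma Reg.eqOn {W : ℝ → ℝ} {ε T : ℝ} (hε : 0 < ε) {α β : ℝ → ℂ} (hα : Reg W ε T α)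
    (hβ : Reg W ε T β) (h : α 0 = β 0) : EqOn α β (Icc 0 T) := by
  intro s hs
  have := hα.dist_le (δ := 0) hε hβ (by rw [h, dist_self]) hs
  rw [zero_mul] at this
  exact dist_le_zero.1 this

/-- Backward uniqueness. -/
lemma Reg.eqOn_back {W : ℝ → ℝ} {ε T : ℝ} (hε : 0 < ε) {α β : ℝ → ℂ} (hα : Reg W ε T α)
    (hβ : Reg W ε T β) (h : α T = β T) : EqOn α β (Icc 0 T) :=
  ODE_solution_unique_of_mem_Icc_left (v := fun s x => fld ε (x - (W s : ℂ)))
    (K := (6 / ε ^ 2).toNNReal) (s := fun _ => univ) (fun _ _ => (fld_lip hε _).lipschitzOnWith)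
    hα.cont hα.left (fun _ _ => trivial) hβ.cont hβ.left (fun _ _ => trivial) h

lemma fld_conj (ε : ℝ) (w : ℂ) : fld ε (conj w) = conj (fld ε w) := by
  have h2 : conj (2 : ℂ) = 2 := by
    have := Complex.conj_ofReal 2
    simpa using this
  rw [fld, fld, map_div₀, map_mul, map_pow, Complex.conj_ofReal, RCLike.norm_conj, h2]

lemma Reg.conj {W : ℝ → ℝ} {ε T : ℝ} {α : ℝ → ℂ} (hα : Reg W ε T α) :
    Reg W ε T (fun s => conj (α s)) := by
  intro s hs
  have h1 : HasDerivWithinAt (fun s => conj (α s)) (conj (fld ε (α s - (W s : ℂ)))) (Icc 0 T) s := by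
    have h2 := (Complex.conjCLE.toContinuousLinearMap.hasFDerivAt (x := α s)).comp_hasDerivWithinAt s (hα s hs)
    exact h2
  have h3 : conj (fld ε (α s - (W s : ℂ))) = fld ε (conj (α s) - (W s : ℂ)) := by
    rw [← fld_conj, map_sub, Complex.conj_ofReal]
  rw [h3] at h1
  exact h1

/-- A real solution of the regularised equation. -/
lemma Reg.real {W : ℝ → ℝ} {ε T : ℝ} (hε : 0 < ε) {α : ℝ → ℂ} (hα : Reg W ε T α) {s : ℝ}
    (hs : s ∈ Icc 0 T) (h0 : (α s).im = 0) {u : ℝ} (hu : u ∈ Icc 0 T) : (α u).im = 0 := by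
  have hback : EqOn (fun s => conj (α s)) α (Icc 0 s) := by
    refine (hα.conj.restrict hs.2).eqOn_back hε (hα.restrict hs.2) ?_
    exact Complex.conj_eq_iff_im.2 h0
  have h00 : conj (α 0) = α 0 := hback ⟨le_rfl, hs.1⟩
  have hall := hα.conj.eqOn hε hα h00 hu
  exact Complex.conj_eq_iff_im.1 hall

lemma CSol.cont {W : ℝ → ℝ} {z : ℂ} {T : ℝ} {g : ℝ → ℂ} (h : CSol W z T g) :
    ContinuousOn g (Icc 0 T) := fun s hs => (h.2 s hs).2.continuousWithinAt

/-- A true solution keeps a positive distance from the driver. -/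
lemma CSol.exists_gap {W : ℝ → ℝ} {z : ℂ} {T : ℝ} {g : ℝ → ℂ} (hT : 0 ≤ T)
    (hW : ContinuousOn W (Icc 0 T)) (h : CSol W z T g) :
    ∃ c > 0, ∀ s ∈ Icc 0 T, c ≤ ‖g s - (W s : ℂ)‖ := by
  have hc : ContinuousOn (fun s => ‖g s - (W s : ℂ)‖) (Icc 0 T) :=
    (h.cont.sub (Complex.continuous_ofReal.comp_continuousOn hW)).norm
  obtain ⟨s0, hs0, hmin⟩ := isCompact_Icc.exists_isMinOn ⟨0, ⟨le_rfl, hT⟩⟩ hc
  refine ⟨‖g s0 - (W s0 : ℂ)‖, norm_pos_iff.2 (sub_ne_zero.2 (h.2 s0 hs0).1), fun s hs => hmin hs⟩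

lemma CSol.reg {W : ℝ → ℝ} {z : ℂ} {T c : ℝ} {g : ℝ → ℂ} (hc : 0 < c) (h : CSol W z T g)
    (hgap : ∀ s ∈ Icc 0 T, c ≤ ‖g s - (W s : ℂ)‖) : Reg W c T g := by
  intro s hs
  rw [fld_eq hc (hgap s hs)]
  exact (h.2 s hs).2

/-- **Openness of the set of surviving starting points.** -/
theorem CSol.isOpen {W : ℝ → ℝ} {z : ℂ} {T : ℝ} {g : ℝ → ℂ} (hT : 0 ≤ T)
    (hW : ContinuousOn W (Icc 0 T)) (h : CSol W z T g) :
    ∃ r > 0, ∀ z' : ℂ, ‖z' - z‖ < r → ∃ g', CSol W z' T g' := by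
  obtain ⟨c, hc, hgap⟩ := h.exists_gap hT hW
  have hc2 : 0 < c / 2 := by positivity
  have hreg : Reg W (c / 2) T g := h.reg hc2 fun s hs => (by linarith [hgap s hs])
  set E : ℝ := Real.exp (6 / (c / 2) ^ 2 * T) with hE
  have hE0 : 0 < E := Real.exp_pos _
  refine ⟨(c / 2) / E, by positivity, fun z' hz' => ?_⟩
  obtain ⟨α, h0, hα⟩ := exists_reg hT hc2 hW z'
  refine ⟨α, CSol_of_reg hc2 h0 hα fun s hs => ?_⟩
  have h1 : dist (α 0) (g 0) ≤ (c / 2) / E := by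
    rw [h0, h.1, dist_eq_norm]
    exact hz'.le
  have h2 := Reg.dist_le hc2 (show Reg W (c / 2) T α from hα) hreg h1 hs
  have h3 : (c / 2) / E * Real.exp (6 / (c / 2) ^ 2 * s) ≤ c / 2 := by
    have : Real.exp (6 / (c / 2) ^ 2 * s) ≤ E := by
      rw [hE]
      exact Real.exp_le_exp.2 (mul_le_mul_of_nonneg_left hs.2 (by positivity))
    rw [div_mul_eq_mul_div, div_le_iff₀ hE0]
    exact mul_le_mul_of_nonneg_left this hc2.le
  have h4 := hgap s hs
  have h5 : ‖g s - (W s : ℂ)‖ ≤ ‖α s - (W s : ℂ)‖ + ‖α s - g s‖ := by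
    have e : g s - (W s : ℂ) = (α s - (W s : ℂ)) - (α s - g s) := by ring
    rw [e]
    exact norm_sub_le _ _
  rw [dist_eq_norm] at h2
  linarith

/-- **A solution started in the half-plane stays there.** -/
theorem CSol.loewner {W : ℝ → ℝ} {z : ℂ} {T : ℝ} {g : ℝ → ℂ} (hW : ContinuousOn W (Icc 0 T))
    (h : CSol W z T g) (hz : 0 < z.im) : IsLoewnerSol W z T g := by
  refine ⟨h.1, fun s hs => ⟨?_, (h.2 s hs).2⟩⟩
  have hT : 0 ≤ T := hs.1.trans hs.2
  obtain ⟨c, hc, hgap⟩ := h.exists_gap hT hW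
  have hreg := h.reg hc hgap
  by_contra hcon
  push Not at hcon
  -- intermediate value theorem
  have hci : ContinuousOn (fun u => (g u).im) (Icc 0 s) :=
    (Complex.continuous_im.comp_continuousOn h.cont).mono (Icc_subset_Icc_right hs.2)
  have hg0 : (g 0).im = z.im := by rw [h.1]
  obtain ⟨u, hu, hu0⟩ := intermediate_value_Icc' hs.1 hci
    (show (0 : ℝ) ∈ Icc (g s).im (g 0).im from ⟨hcon, by rw [hg0]; exact hz.le⟩)
  have := hreg.real hc ⟨hu.1, hu.2.trans hs.2⟩ hu0 (⟨le_rfl, hT⟩ : (0 : ℝ) ∈ Icc 0 T)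
  rw [hg0] at this
  linarith

lemma hasDerivWithinAt_re {g : ℝ → ℂ} {g' : ℂ} {S : Set ℝ} {s : ℝ} (h : HasDerivWithinAt g g' S s) :
    HasDerivWithinAt (fun s => (g s).re) g'.re S s :=
  (Complex.reCLM.hasFDerivAt (x := g s)).comp_hasDerivWithinAt s h

/-- A real valued complex solution is a real solution. -/
lemma CSol.rsol_of_im {W : ℝ → ℝ} {x : ℝ} {T : ℝ} {g : ℝ → ℂ} (h : CSol W x T g)
    (him : ∀ s ∈ Icc 0 T, (g s).im = 0) : RSol W x T (fun s => (g s).re) := by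
  refine ⟨by simp [h.1], fun s hs => ?_⟩
  obtain ⟨h1, h2⟩ := h.2 s hs
  have h3 : g s = (((g s).re : ℝ) : ℂ) := by
    apply Complex.ext
    · simp
    · simpa using him s hs
  constructor
  · intro h4
    apply h1
    have h5 : (g s).re = W s := h4
    rw [h3, h5]
  · have h4 := hasDerivWithinAt_re h2
    have h5 : (2 / (g s - (W s : ℂ))).re = 2 / ((g s).re - W s) := by
      rw [h3]
      rw [← Complex.ofReal_sub, Complex.ofReal_re]
      rw [show (2 : ℂ) = ((2 : ℝ) : ℂ) by norm_num, ← Complex.ofReal_div, Complex.ofReal_re]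
    rwa [h5] at h4

/-- **A solution started on the real line stays there.** -/
theorem CSol.rsol {W : ℝ → ℝ} {x : ℝ} {T : ℝ} {g : ℝ → ℂ} (hW : ContinuousOn W (Icc 0 T))
    (h : CSol W x T g) : RSol W x T (fun s => (g s).re) := by
  refine h.rsol_of_im fun s hs => ?_
  have hT : 0 ≤ T := hs.1.trans hs.2
  obtain ⟨c, hc, hgap⟩ := h.exists_gap hT hW
  have hreg := h.reg hc hgap
  exact hreg.real hc (⟨le_rfl, hT⟩ : (0 : ℝ) ∈ Icc 0 T) (by rw [h.1]; simp) hs

/-- A real solution as a complex solution. -/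
lemma RSol.csol {W : ℝ → ℝ} {x T : ℝ} {y : ℝ → ℝ} (h : RSol W x T y) :
    CSol W x T (fun s => (y s : ℂ)) := by
  refine ⟨by simp only [h.1], fun s hs => ?_⟩
  obtain ⟨h1, h2⟩ := h.2 s hs
  refine ⟨fun h3 => h1 (Complex.ofReal_injective h3), ?_⟩
  have h4 := h2.ofReal_comp
  have h5 : ((2 / (y s - W s) : ℝ) : ℂ) = 2 / ((y s : ℂ) - (W s : ℂ)) := by
    push_cast
    rfl
  rw [h5] at h4
  exact h4

lemma RSol.cont {W : ℝ → ℝ} {x T : ℝ} {y : ℝ → ℝ} (h : RSol W x T y) :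
    ContinuousOn y (Icc 0 T) := fun s hs => (h.2 s hs).2.continuousWithinAt

/-- **Monotonicity on the right of the driver.** -/
theorem RSol.mono_right {W : ℝ → ℝ} {x x' T : ℝ} {y : ℝ → ℝ} (hT : 0 ≤ T)
    (hW : ContinuousOn W (Icc 0 T)) (h : RSol W x T y) (hx : W 0 < x) (hxx : x ≤ x') :
    ∃ y', RSol W x' T y' := by
  rcases hxx.eq_or_lt with rfl | hlt
  · exact ⟨y, h⟩
  have hpos : ∀ s ∈ Icc 0 T, 0 < y s - W s := by
    intro s hs
    by_contra hcon
    push Not at hcon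
    have hci : ContinuousOn (fun u => y u - W u) (Icc 0 s) :=
      (h.cont.sub hW).mono (Icc_subset_Icc_right hs.2)
    obtain ⟨u, hu, hu0⟩ := intermediate_value_Icc' hs.1 hci
      (show (0 : ℝ) ∈ Icc (y s - W s) (y 0 - W 0) from ⟨hcon, by rw [h.1]; linarith⟩)
    exact (h.2 u ⟨hu.1, hu.2.trans hs.2⟩).1 (sub_eq_zero.1 hu0)
  have hcs := h.csol
  obtain ⟨c, hc, hgap⟩ := hcs.exists_gap hT hW
  have hreg := hcs.reg hc hgap
  have hgap' : ∀ s ∈ Icc 0 T, c ≤ y s - W s := by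
    intro s hs
    have := hgap s hs
    rw [← Complex.ofReal_sub, Complex.norm_real, Real.norm_eq_abs, abs_of_pos (hpos s hs)] at this
    exact this
  obtain ⟨α, h0, hα⟩ := exists_reg hT hc hW (x' : ℂ)
  have hα' : Reg W c T α := hα
  have him : ∀ s ∈ Icc 0 T, (α s).im = 0 := fun s hs =>
    hα'.real hc (⟨le_rfl, hT⟩ : (0 : ℝ) ∈ Icc 0 T) (by rw [h0]; simp) hs
  have hge : ∀ s ∈ Icc 0 T, y s < (α s).re := by
    intro s hs
    by_contra hcon
    push Not at hcon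
    have hci : ContinuousOn (fun u => (α u).re - y u) (Icc 0 s) :=
      ((Complex.continuous_re.comp_continuousOn hα'.cont).sub h.cont).mono
        (Icc_subset_Icc_right hs.2)
    have h00 : (α 0).re - y 0 = x' - x := by rw [h0, h.1, Complex.ofReal_re]
    obtain ⟨u, hu, hu0⟩ := intermediate_value_Icc' hs.1 hci
      (show (0 : ℝ) ∈ Icc ((α s).re - y s) ((α 0).re - y 0) from
        ⟨by linarith, by rw [h00]; linarith⟩)
    have huT : u ≤ T := hu.2.trans hs.2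
    have heq : α u = ((y u : ℝ) : ℂ) := by
      apply Complex.ext
      · rw [Complex.ofReal_re]
        simp only at hu0
        linarith
      · rw [Complex.ofReal_im]
        exact him u ⟨hu.1, huT⟩
    have hb := (hα'.restrict huT).eqOn_back hc (hreg.restrict huT) heq
    have hb0 := hb ⟨le_rfl, hu.1⟩
    simp only at hb0
    rw [h0, h.1] at hb0
    have := Complex.ofReal_injective hb0
    linarith
  have hfin : CSol W x' T α := CSol_of_reg hc h0 hα fun s hs => by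
    refine le_trans ?_ (Complex.abs_re_le_norm _)
    rw [Complex.sub_re, Complex.ofReal_re]
    refine le_trans ?_ (le_abs_self _)
    have h1 := hgap' s hs
    have h2 := hge s hs
    linarith
  exact ⟨_, hfin.rsol_of_im him⟩

lemma RSol.neg {W : ℝ → ℝ} {x T : ℝ} {y : ℝ → ℝ} (h : RSol W x T y) :
    RSol (fun s => -W s) (-x) T (fun s => -y s) := by
  refine ⟨by simp only [h.1], fun s hs => ?_⟩
  obtain ⟨h1, h2⟩ := h.2 s hs
  refine ⟨fun h3 => h1 (neg_injective h3), ?_⟩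
  have h4 := h2.neg
  have h5 : -(2 / (y s - W s)) = 2 / (-y s - -W s) := by
    rw [← div_neg]
    congr 1
    ring
  rw [h5] at h4
  exact h4

/-- **Monotonicity on the left of the driver.** -/
theorem RSol.mono_left {W : ℝ → ℝ} {x x' T : ℝ} {y : ℝ → ℝ} (hT : 0 ≤ T)
    (hW : ContinuousOn W (Icc 0 T)) (h : RSol W x T y) (hx : x < W 0) (hxx : x' ≤ x) :
    ∃ y', RSol W x' T y' := by
  have hW' : ContinuousOn (fun s => -W s) (Icc 0 T) := hW.neg
  obtain ⟨y', hy'⟩ := h.neg.mono_right hT hW' (neg_lt_neg hx) (neg_le_neg hxx)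
  have := hy'.neg
  simp only [neg_neg] at this
  exact ⟨_, this⟩

theorem s_open : S_open := fun _ _ hT hW _ _ h => h.isOpen hT hW

theorem s_half : S_half := fun _ _ hW _ _ h hz => h.loewner hW hz

theorem s_real : S_real := fun _ _ hW _ _ h => h.rsol hW

theorem s_mono : S_mono := by
  rintro W T hT hW x x' y h (⟨h1, h2⟩ | ⟨h1, h2⟩)
  · exact h.mono_right hT hW h1 h2
  · exact h.mono_left hT hW h2 h1

end Vale.Agent.P153.BESS
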