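import Vale.Agent.P153.R2.BESS.Alive
import Vale.Agent.P153.R2.BESS.Flow
import Vale.Agent.P153.R2.ARCX.Defs

/-! # P153, block BESS: final theorems

For the driver `W = 2B`, almost surely, for all chains restarted at rational times: no real point
other than the starting point of the driver is swallowed, and no point of a given countable set. -/

namespace Vale.Agent.P153.BESS

open MeasureTheory ProbabilityTheory Set Filter Topology Vale.Agent.P164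
open scoped NNReal ENNReal

universe u

variable {Ω : Type u} [mΩ : MeasurableSpace Ω] {P : Measure Ω}

/-- The restarted driver is again a driver. -/
theorem IsDriver4.shift {W : Ω → ℝ → ℝ} (hW : IsDriver4 P W) {s : ℝ} (hs : 0 ≤ s) :
    IsDriver4 P (fun ω => sh s (W ω)) := by
  obtain ⟨B, hB, hWB⟩ := hW
  refine ⟨fun t ω => B (s.toNNReal + t) ω - B s.toNNReal ω, hB.shift s.toNNReal, ?_⟩
  filter_upwards [hWB] with ω hω t ht
  rw [sh, hω _ (add_nonneg hs ht), hω _ hs, Real.toNNReal_add hs ht]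
  ring

/-- Almost all paths of the driver are continuous on `[0,∞)`. -/
theorem IsDriver4.cont {W : Ω → ℝ → ℝ} (hW : IsDriver4 P W) :
    ∀ᵐ ω ∂P, ContinuousOn (W ω) (Ici 0) := by
  obtain ⟨B, hB, hWB⟩ := hW
  filter_upwards [hWB, hB.cont] with ω h1 h2
  have hc : Continuous fun t : ℝ => 2 * B t.toNNReal ω :=
    continuous_const.mul (h2.comp continuous_real_toNNReal)
  exact hc.continuousOn.congr fun t ht => h1 t ht

/-- The driver starts at `0`. -/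
theorem IsDriver4.zero {W : Ω → ℝ → ℝ} (hW : IsDriver4 P W) : ∀ᵐ ω ∂P, W ω 0 = 0 := by
  obtain ⟨B, hB, hWB⟩ := hW
  filter_upwards [hWB, hB.toIsPreBrownianReal.eval_zero_ae_eq_zero] with ω h1 h2
  rw [h1 0 le_rfl, Real.toNNReal_zero, h2, mul_zero]

/-- The driver in the form used for `P164.IsSLETrace`, `P164.IsSLE` with `κ = 4`. -/
theorem isDriver4_sqrt {B : ℝ≥0 → Ω → ℝ} (hB : IsBrownianReal B P) :
    IsDriver4 P (fun ω t => √(4 : ℝ) * B t.toNNReal ω) := by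
  refine ⟨B, hB, ae_of_all _ fun ω t _ => ?_⟩
  have : √(4 : ℝ) = 2 := by
    rw [show (4 : ℝ) = 2 ^ 2 by norm_num]
    exact Real.sqrt_sq (by norm_num)
  rw [this]

/-- A driver is determined up to null sets on `[0,∞)`. -/
theorem IsDriver4.congr {W W' : Ω → ℝ → ℝ} (hW : IsDriver4 P W)
    (h : ∀ᵐ ω ∂P, ∀ t : ℝ, 0 ≤ t → W' ω t = W ω t) : IsDriver4 P W' := by
  obtain ⟨B, hB, hWB⟩ := hW
  refine ⟨B, hB, ?_⟩
  filter_upwards [hWB, h] with ω h1 h2 t ht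
  rw [h2 t ht, h1 t ht]

/-- (P2) for one starting point and all times. -/
theorem alive_half {W : Ω → ℝ → ℝ} (hW : IsDriver4 P W) {z : ℂ} (hz : 0 < z.im) :
    ∀ᵐ ω ∂P, ∀ t : ℝ, z ∈ loewnerDomain (W ω) t := by
  have hz0 : z ≠ 0 := by
    rintro rfl
    simp at hz
  filter_upwards [alive hW hz0, hW.cont] with ω h1 h2 t
  obtain ⟨g, hg⟩ := h1 t
  exact ⟨g, hg.loewner (h2.mono fun u hu => hu.1) hz⟩

/-- (P2) -/
theorem p2 {W : Ω → ℝ → ℝ} (hW : IsDriver4 P W) {D : Set ℂ} (hD : D.Countable)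
    (hD0 : ∀ z ∈ D, 0 < z.im) :
    ∀ᵐ ω ∂P, ∀ s : ℚ, 0 ≤ s → ∀ z ∈ D, ∀ t : ℝ, z ∈ loewnerDomain (sh s (W ω)) t := by
  rw [ae_all_iff]
  intro s
  by_cases hs : 0 ≤ s
  · have h1 : ∀ᵐ ω ∂P, ∀ z ∈ D, ∀ t : ℝ, z ∈ loewnerDomain (sh s (W ω)) t := by
      rw [ae_ball_iff hD]
      intro z hz
      exact alive_half (hW.shift (by exact_mod_cast hs)) (hD0 z hz)
    filter_upwards [h1] with ω hω _
    exact hω
  · exact ae_of_all _ fun ω h => absurd h hs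

/-- (P1) for one chain. -/
theorem p1_one {W : Ω → ℝ → ℝ} (hW : IsDriver4 P W) :
    ∀ᵐ ω ∂P, ∀ x : ℝ, x ≠ 0 → ∀ T : ℝ, ∃ y, RSol (W ω) x T y := by
  have h1 : ∀ᵐ ω ∂P, ∀ q : ℚ, q ≠ 0 → ∀ T : ℝ, ∃ g, CSol (W ω) ((q : ℝ) : ℂ) T g := by
    rw [ae_all_iff]
    intro q
    by_cases hq : q = 0
    · exact ae_of_all _ fun ω h => absurd hq h
    · have hq' : (((q : ℝ) : ℂ)) ≠ 0 := by
        exact_mod_cast hq
      filter_upwards [alive hW hq'] with ω hω _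
      exact hω
  filter_upwards [h1, hW.cont, hW.zero] with ω h1 h2 h3 x hx T
  rcases lt_or_ge T 0 with hT | hT
  · refine ⟨fun _ => x, rfl, fun s hs => ?_⟩
    have := hs.1.trans hs.2
    linarith
  have hc : ContinuousOn (W ω) (Icc 0 T) := h2.mono fun u hu => hu.1
  rcases lt_or_gt_of_ne hx with hx | hx
  · obtain ⟨q, hq1, hq2⟩ := exists_rat_btwn hx
    have hq0 : q ≠ 0 := by
      rintro rfl
      simp at hq2
    obtain ⟨g, hg⟩ := h1 q hq0 T
    exact (hg.rsol hc).mono_left hT hc (by rw [h3]; exact hq2) hq1.le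
  · obtain ⟨q, hq1, hq2⟩ := exists_rat_btwn hx
    have hq0 : q ≠ 0 := by
      rintro rfl
      simp at hq1
    obtain ⟨g, hg⟩ := h1 q hq0 T
    exact (hg.rsol hc).mono_right hT hc (by rw [h3]; exact hq1) hq2.le

/-- (P1) -/
theorem p1 {W : Ω → ℝ → ℝ} (hW : IsDriver4 P W) :
    ∀ᵐ ω ∂P, ∀ s : ℚ, 0 ≤ s → ∀ x : ℝ, x ≠ 0 → ∀ T : ℝ, ∃ y, RSol (sh s (W ω)) x T y := by
  rw [ae_all_iff]
  intro s
  by_cases hs : 0 ≤ s
  · filter_upwards [p1_one (hW.shift (s := (s : ℝ)) (by exact_mod_cast hs))] with ω hω _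
    exact hω
  · exact ae_of_all _ fun ω h => absurd h hs

lemma sh_cont {W : ℝ → ℝ} (h : ContinuousOn W (Ici 0)) {s T : ℝ} (hs : 0 ≤ s) :
    ContinuousOn (sh s W) (Icc 0 T) := by
  refine ContinuousOn.sub ?_ continuousOn_const
  refine h.comp (continuousOn_const.add continuousOn_id) fun u hu => ?_
  exact add_nonneg hs hu.1

/-- (P1) in hull form. -/
theorem p1hull {W : Ω → ℝ → ℝ} (hW : IsDriver4 P W) :
    ∀ᵐ ω ∂P, ∀ s : ℚ, 0 ≤ s → ∀ x : ℝ, x ≠ 0 → ∀ T : ℝ,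
      ∃ r > 0, ∀ z : ℂ, 0 < z.im → ‖z - x‖ < r → z ∈ loewnerDomain (sh s (W ω)) T := by
  filter_upwards [p1 hW, hW.cont] with ω h1 h2 s hs x hx T
  rcases lt_or_ge T 0 with hT | hT
  · refine ⟨1, one_pos, fun z _ _ => ⟨fun _ => z, rfl, fun s hs => ?_⟩⟩
    have := hs.1.trans hs.2
    linarith
  obtain ⟨y, hy⟩ := h1 s hs x hx T
  have hc : ContinuousOn (sh s (W ω)) (Icc 0 T) := sh_cont h2 (by exact_mod_cast hs)
  obtain ⟨r, hr, H⟩ := hy.csol.isOpen hT hc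
  refine ⟨r, hr, fun z hz hzx => ?_⟩
  obtain ⟨g, hg⟩ := H z hzx
  exact ⟨g, hg.loewner hc hz⟩

theorem s_alive : S_alive := fun _ _ hW _ hz => alive hW hz

theorem s_P2 : S_P2 := fun _ _ hW _ hD hD0 => p2 hW hD hD0

theorem s_P1 : S_P1 := fun _ _ hW => p1 hW

theorem s_P1hull : S_P1hull := fun _ _ hW => p1hull hW

/-- **The two facts used by the block ARCX.** -/
theorem noSwallow {W : Ω → ℝ → ℝ} (hW : IsDriver4 P W) :
    ∀ᵐ ω ∂P, R2.ARCX.NoSwallowR (W ω) ∧ R2.ARCX.NoSwallowH (W ω) := by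
  obtain ⟨D, hDc, hDd⟩ := TopologicalSpace.exists_countable_dense ℂ
  have hD' : (D ∩ {z : ℂ | 0 < z.im}).Countable := hDc.mono inter_subset_left
  filter_upwards [p1hull hW, p2 hW hD' (fun z hz => hz.2), hW.zero] with ω h1 h2 h3
  refine ⟨h1, fun z hz r hr => ?_⟩
  have hopen : IsOpen (Metric.ball z r ∩ {z : ℂ | 0 < z.im}) :=
    Metric.isOpen_ball.inter (isOpen_lt continuous_const Complex.continuous_im)
  obtain ⟨w, ⟨hw1, hw2⟩, hwD⟩ := hDd.inter_open_nonempty _ hopen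
    ⟨z, Metric.mem_ball_self hr, hz⟩
  refine ⟨w, hw1, fun t _ => ?_⟩
  have h4 := h2 0 le_rfl w ⟨hwD, hw2⟩ t
  have h5 : sh ((0 : ℚ) : ℝ) (W ω) = W ω := by
    funext u
    simp [sh, h3]
  rwa [h5] at h4

end Vale.Agent.P153.BESS
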