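import Vale.Agent.P153.R2.BESS.Stmt

/-! # P153, block BESS: the one-step estimate for the Lyapunov function `|y|² - ½ log(|y|²+ε²)` -/

namespace Vale.Agent.P153.BESS

open MeasureTheory ProbabilityTheory Set Filter Topology
open scoped NNReal ENNReal ComplexConjugate

/-- Taylor expansion of the logarithm with a global error bound. -/
lemma neg_log_bound {m η Q D ε : ℝ} (hε : 0 < ε) (hη : 0 ≤ η) (hQ : Q = m ^ 2 + ε ^ 2)
    (hD : -(2 * m * η) ≤ D) (hQD : ε ^ 2 ≤ Q + D) :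
    -Real.log (1 + D / Q) ≤ -(D / Q) + (D / Q) ^ 2 / 2 + 32 * (η / ε) ^ 3 := by
  have hQ0 : 0 < Q := by rw [hQ]; positivity
  have hmQ : 2 * m * ε ≤ Q := by rw [hQ]; nlinarith [sq_nonneg (m - ε)]
  have hηε : 0 ≤ η / ε := by positivity
  set s : ℝ := D / Q with hs
  have hsD : s * Q = D := by rw [hs]; field_simp
  have hspos : 0 < 1 + s := by
    have : 0 < (1 + s) * Q := by nlinarith [sq_pos_of_pos hε]
    exact pos_of_mul_pos_left this hQ0.le
  -- negative `s` is controlled by `η / ε`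
  have hneg : -s ≤ η / ε := by
    rw [le_div_iff₀ hε]
    have h1 : -s * Q ≤ 2 * m * η := by linarith
    have h2 : -s * ε * Q ≤ η * Q := by nlinarith
    exact le_of_mul_le_mul_right h2 hQ0
  rcases le_or_gt 0 s with h0 | h0
  · have h1 := Real.le_log_one_add_of_nonneg h0
    have h2 : s - s ^ 2 / 2 ≤ 2 * s / (s + 2) := by
      rw [le_div_iff₀ (by linarith)]
      nlinarith [pow_nonneg h0 3]
    have h3 : 0 ≤ 32 * (η / ε) ^ 3 := by positivity
    linarith
  · rcases le_or_gt (-(1 / 2)) s with h1 | h1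
    · have h2 := Real.abs_log_sub_add_sum_range_le (x := -s) (by rw [abs_of_pos (by linarith)]; linarith) 2
      rw [abs_of_pos (by linarith : 0 < -s)] at h2
      simp only [Finset.sum_range_succ, Finset.sum_range_zero, sub_neg_eq_add] at h2
      have h3 := (abs_le.1 h2).1
      norm_num at h3
      have h4 : (-s) ^ 3 / (1 + s) ≤ 2 * (-s) ^ 3 := by
        rw [div_le_iff₀ hspos]
        nlinarith [pow_pos (by linarith : 0 < -s) 3]
      have h5 : (-s) ^ 3 ≤ (η / ε) ^ 3 := pow_le_pow_left₀ (by linarith) hneg 3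
      have h6 : 0 ≤ (η / ε) ^ 3 := by positivity
      nlinarith
    · -- far away
      have h2 : 1 / 2 < η / ε := by linarith
      have h3 : Q < 16 * η ^ 2 := by
        have e1 : Q / 2 < 2 * m * η := by nlinarith
        have e2 : m ^ 2 ≤ Q := by rw [hQ]; nlinarith [sq_pos_of_pos hε]
        by_contra hcon
        push Not at hcon
        have e3 : (2 * m * η) ^ 2 ≤ (Q / 2) ^ 2 := by
          have : 4 * m ^ 2 * η ^ 2 ≤ 4 * Q * (Q / 16) := by
            have h7 : 0 ≤ η ^ 2 := sq_nonneg _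
            have h8 : 0 ≤ m ^ 2 := sq_nonneg _
            nlinarith
          nlinarith
        have e4 : 2 * m * η ≤ Q / 2 := abs_le_of_sq_le_sq' e3 (by positivity) |>.2
        linarith
      have h4 : -Real.log (1 + s) ≤ 32 * (η / ε) ^ 3 := by
        rw [← Real.log_inv]
        refine (Real.log_le_sub_one_of_pos (by positivity)).trans ?_
        have e5 : (1 + s)⁻¹ ≤ Q / ε ^ 2 := by
          rw [inv_le_comm₀ hspos (by positivity), inv_div, div_le_iff₀ hQ0]
          nlinarith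
        have e6 : Q / ε ^ 2 ≤ 16 * (η / ε) ^ 2 := by
          rw [div_pow, ← mul_div_assoc]
          gcongr
        have e7 : 16 * (η / ε) ^ 2 ≤ 32 * (η / ε) ^ 3 := by
          nlinarith [sq_nonneg (η / ε)]
        linarith
      have h5 : 0 ≤ -s + s ^ 2 / 2 := by nlinarith [sq_nonneg s]
      linarith

/-- The Lyapunov function. -/
noncomputable def V (ε : ℝ) (y : ℂ) : ℝ :=
  Complex.normSq y - 1 / 2 * Real.log (Complex.normSq y + ε ^ 2)

lemma V_nonneg {ε : ℝ} (hε : 0 < ε) (h1 : ε ≤ 1) (y : ℂ) : 0 ≤ V ε y := by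
  have h0 := Complex.normSq_nonneg y
  have h2 : Real.log (Complex.normSq y + ε ^ 2) ≤ Complex.normSq y + ε ^ 2 - 1 :=
    Real.log_le_sub_one_of_pos (by positivity)
  have h3 : ε ^ 2 ≤ 1 := pow_le_one₀ hε.le h1
  rw [V]
  linarith

lemma V_measurable (ε : ℝ) : Measurable (V ε) := by
  unfold V
  have h : Measurable fun y : ℂ => Complex.normSq y := Complex.continuous_normSq.measurable
  exact h.sub ((Real.measurable_log.comp (h.add_const _)).const_mul _)

lemma V_lower {ε : ℝ} (hε : 0 < ε) {y : ℂ} (hy : ‖y‖ < ε) :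
    -(1 / 2 * Real.log (2 * ε ^ 2)) ≤ V ε y := by
  have h0 := Complex.normSq_nonneg y
  have h1 : Complex.normSq y + ε ^ 2 ≤ 2 * ε ^ 2 := by
    rw [Complex.normSq_eq_norm_sq]
    nlinarith [norm_nonneg y]
  have h2 := Real.log_le_log (by positivity) h1
  rw [V]
  linarith

lemma V_upper {ε : ℝ} {y : ℂ} (hy : y ≠ 0) : V ε y ≤ ‖y‖ ^ 2 - Real.log ‖y‖ := by
  have h0 : 0 < Complex.normSq y := Complex.normSq_pos.2 hy
  have h1 := Real.log_le_log h0 (show Complex.normSq y ≤ Complex.normSq y + ε ^ 2 by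
    nlinarith [sq_nonneg ε])
  have h2 : Real.log (Complex.normSq y) = 2 * Real.log ‖y‖ := by
    rw [Complex.normSq_eq_norm_sq, Real.log_pow]
    push_cast
    ring
  have h3 := Complex.normSq_eq_norm_sq y
  rw [V]
  linarith

/-- The square of the relative increment. -/
lemma sq_bound {m η Q ρ ε : ℝ} (hε : 0 < ε) (hη : 0 ≤ η) (hQ : Q = m ^ 2 + ε ^ 2)
    (hρ : |ρ| ≤ m * η) :
    ((2 * ρ + η ^ 2) / Q) ^ 2 ≤ 4 * (ρ ^ 2 / Q ^ 2) + 2 * (η / ε) ^ 3 + (η / ε) ^ 4 := by
  have hQ0 : 0 < Q := by rw [hQ]; positivity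
  have hmQ : 2 * m * ε ≤ Q := by rw [hQ]; nlinarith only [sq_nonneg (m - ε)]
  have hεQ : ε ^ 2 ≤ Q := by rw [hQ]; nlinarith only [sq_nonneg m]
  have e1 : ((2 * ρ + η ^ 2) / Q) ^ 2 =
      4 * (ρ ^ 2 / Q ^ 2) + 4 * ρ * η ^ 2 / Q ^ 2 + η ^ 4 / Q ^ 2 := by
    field_simp
    ring
  have e2 : 4 * ρ * η ^ 2 / Q ^ 2 ≤ 2 * (η / ε) ^ 3 := by
    have h1 : 4 * ρ * η ^ 2 ≤ 4 * (m * η) * η ^ 2 := by
      have h2 := (abs_le.1 hρ).2
      have h3 := sq_nonneg η
      have h4 := mul_le_mul_of_nonneg_right h2 h3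
      linarith only [h4]
    have h2 : 4 * (m * η) * η ^ 2 / Q ^ 2 ≤ 2 * (η / ε) ^ 3 := by
      rw [div_le_iff₀ (by positivity), div_pow]
      have h3 : 2 * m * ε * ε ^ 2 ≤ Q * Q := mul_le_mul hmQ hεQ (by positivity) hQ0.le
      have h4 : 4 * (m * η) * η ^ 2 = 2 * (η ^ 3 / ε ^ 3) * (2 * m * ε * ε ^ 2) := by
        field_simp
        ring
      rw [h4]
      have h5 : 0 ≤ 2 * (η ^ 3 / ε ^ 3) := by positivity
      have h6 := mul_le_mul_of_nonneg_left h3 h5
      linarith only [h6]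
    exact (div_le_div_of_nonneg_right h1 (by positivity)).trans h2
  have e3 : η ^ 4 / Q ^ 2 ≤ (η / ε) ^ 4 := by
    rw [div_pow]
    have h3 : ε ^ 4 ≤ Q ^ 2 := by
      have := pow_le_pow_left₀ (sq_nonneg ε) hεQ 2
      nlinarith only [this]
    gcongr
  rw [e1]
  linarith only [e2, e3]

/-- Second order expansion of `V` with a global error bound. -/
lemma V_pt {ε : ℝ} (hε : 0 < ε) (y h : ℂ) :
    V ε (y + h) ≤ V ε y + (2 * (y.re * h.re + y.im * h.im) + ‖h‖ ^ 2)
      - (2 * (y.re * h.re + y.im * h.im) + ‖h‖ ^ 2) / (2 * (Complex.normSq y + ε ^ 2))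
      + (y.re * h.re + y.im * h.im) ^ 2 / (Complex.normSq y + ε ^ 2) ^ 2
      + 17 * (‖h‖ / ε) ^ 3 + (‖h‖ / ε) ^ 4 := by
  set ρ : ℝ := y.re * h.re + y.im * h.im with hρ
  set η : ℝ := ‖h‖ with hη
  set m : ℝ := ‖y‖ with hm
  set Q : ℝ := Complex.normSq y + ε ^ 2 with hQ
  have hm0 : 0 ≤ m := norm_nonneg _
  have hη0 : 0 ≤ η := norm_nonneg _
  have hQm : Q = m ^ 2 + ε ^ 2 := by rw [hQ, Complex.normSq_eq_norm_sq]
  have hQ0 : 0 < Q := by rw [hQm]; positivity
  have hη2 : η ^ 2 = h.re ^ 2 + h.im ^ 2 := by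
    rw [hη, ← Complex.normSq_eq_norm_sq, Complex.normSq_apply]
    ring
  have hm2 : m ^ 2 = y.re ^ 2 + y.im ^ 2 := by
    rw [hm, ← Complex.normSq_eq_norm_sq, Complex.normSq_apply]
    ring
  have hρle : |ρ| ≤ m * η := by
    refine abs_le_of_sq_le_sq ?_ (by positivity)
    rw [mul_pow, hη2, hm2, hρ]
    nlinarith [sq_nonneg (y.re * h.im - y.im * h.re)]
  set D : ℝ := 2 * ρ + η ^ 2 with hD
  have hns : Complex.normSq (y + h) = Complex.normSq y + D := by
    rw [Complex.normSq_apply, Complex.normSq_apply, Complex.add_re, Complex.add_im, hD, hη2, hρ]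
    ring
  have hns0 : 0 ≤ Complex.normSq (y + h) := Complex.normSq_nonneg _
  have hQD : ε ^ 2 ≤ Q + D := by
    rw [hQ]
    linarith
  have hDlow : -(2 * m * η) ≤ D := by
    have := (abs_le.1 hρle).1
    nlinarith [sq_nonneg η]
  have key := neg_log_bound hε hη0 hQm hDlow hQD
  have hlog : Real.log (Q + D) = Real.log Q + Real.log (1 + D / Q) := by
    have h1 : 0 < 1 + D / Q := by
      have : 0 < (1 + D / Q) * Q := by
        have : (1 + D / Q) * Q = Q + D := by field_simp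
        rw [this]
        nlinarith [sq_pos_of_pos hε]
      exact pos_of_mul_pos_left this hQ0.le
    rw [← Real.log_mul hQ0.ne' h1.ne']
    congr 1
    field_simp
  have hV : V ε (y + h) = V ε y + D + 1 / 2 * (-Real.log (1 + D / Q)) := by
    rw [V, V, hns]
    have : Complex.normSq y + D + ε ^ 2 = Q + D := by rw [hQ]; ring
    rw [this, hlog, ← hQ]
    ring
  have hsq := sq_bound hε hη0 hQm hρle
  rw [← hD] at hsq
  have hε3 : 0 ≤ (η / ε) ^ 3 := by positivity
  have hε4 : 0 ≤ (η / ε) ^ 4 := by positivity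
  have hDQ : D / (2 * Q) = 1 / 2 * (D / Q) := by
    field_simp
  rw [hV, hDQ]
  linarith only [key, hsq, hε3, hε4]

end Vale.Agent.P153.BESS
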