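import Vale.Agent.P153.R2.BESS.Step

/-! # P153, block BESS: the one-step estimate, integrated over a Gaussian increment -/

namespace Vale.Agent.P153.BESS

open MeasureTheory ProbabilityTheory Set Filter Topology
open scoped NNReal ENNReal ComplexConjugate

/-- The size of the third order error. -/
lemma err_bound {ε δ η x : ℝ} (hε : 0 < ε) (hε1 : ε ≤ 1) (hδ : 0 < δ) (hδ1 : δ ≤ 1)
    (h : η ^ 2 ≤ 8 * δ * (1 + x ^ 2)) :
    17 * (η / ε) ^ 3 + (η / ε) ^ 4 ≤ 1352 / ε ^ 4 * (δ * √δ) * (1 + x ^ 4) := by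
  have hs : 0 < √δ := Real.sqrt_pos.2 hδ
  have hs2 : √δ * √δ = δ := Real.mul_self_sqrt hδ.le
  have hs1 : √δ ≤ 1 := Real.sqrt_le_one.2 hδ1
  have hx2 : 0 ≤ x ^ 2 := sq_nonneg _
  have hx4 : 0 ≤ x ^ 4 := by positivity
  have h1 : 1 + x ^ 2 ≤ 2 * (1 + x ^ 4) := by nlinarith only [sq_nonneg (x ^ 2 - 1), hx4]
  have h2 : (1 + x ^ 2) ^ 2 ≤ 2 * (1 + x ^ 4) := by nlinarith only [sq_nonneg (x ^ 2 - 1)]
  have h3 : η ^ 4 ≤ 128 * δ ^ 2 * (1 + x ^ 4) := by
    have e1 : (η ^ 2) ^ 2 ≤ (8 * δ * (1 + x ^ 2)) ^ 2 := pow_le_pow_left₀ (sq_nonneg _) h 2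
    have e2 : (8 * δ * (1 + x ^ 2)) ^ 2 = 64 * δ ^ 2 * (1 + x ^ 2) ^ 2 := by ring
    have e3 : 64 * δ ^ 2 * (1 + x ^ 2) ^ 2 ≤ 64 * δ ^ 2 * (2 * (1 + x ^ 4)) :=
      mul_le_mul_of_nonneg_left h2 (by positivity)
    calc η ^ 4 = (η ^ 2) ^ 2 := by ring
      _ ≤ 64 * δ ^ 2 * (2 * (1 + x ^ 4)) := by rw [← e2] at e3; exact e1.trans e3
      _ = _ := by ring
  have h4 : η ^ 2 ≤ 16 * δ * (1 + x ^ 4) := by
    have := mul_le_mul_of_nonneg_left h1 (show 0 ≤ 8 * δ by positivity)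
    linarith only [h, this]
  have h5 : η ^ 3 ≤ 72 * (δ * √δ) * (1 + x ^ 4) := by
    have e1 : 2 * √δ * η ^ 3 ≤ δ * η ^ 2 + η ^ 4 := by
      have : 0 ≤ η ^ 2 * (√δ - η) ^ 2 := by positivity
      have e : η ^ 2 * (√δ - η) ^ 2 = (√δ * √δ) * η ^ 2 - 2 * √δ * η ^ 3 + η ^ 4 := by ring
      rw [e, hs2] at this
      linarith only [this]
    have e2 : δ * η ^ 2 ≤ δ * (16 * δ * (1 + x ^ 4)) := mul_le_mul_of_nonneg_left h4 hδ.le
    have e3 : 2 * √δ * η ^ 3 ≤ 2 * √δ * (72 * (δ * √δ) * (1 + x ^ 4)) := by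
      have e4 : 2 * √δ * (72 * (δ * √δ) * (1 + x ^ 4)) = 144 * δ ^ 2 * (1 + x ^ 4) := by
        have : 2 * √δ * (72 * (δ * √δ) * (1 + x ^ 4)) =
          144 * δ * (√δ * √δ) * (1 + x ^ 4) := by ring
        rw [this, hs2]
        ring
      rw [e4]
      nlinarith only [e1, e2, h3]
    exact le_of_mul_le_mul_left e3 (by positivity)
  have h6 : (η / ε) ^ 3 ≤ 72 / ε ^ 4 * (δ * √δ) * (1 + x ^ 4) := by
    rw [div_pow, div_le_iff₀ (by positivity)]
    refine h5.trans ?_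
    have e : 72 / ε ^ 4 * (δ * √δ) * (1 + x ^ 4) * ε ^ 3 =
        72 * (δ * √δ) * (1 + x ^ 4) * (1 / ε) := by
      field_simp
    rw [e]
    have h7 : 1 ≤ 1 / ε := by rw [le_div_iff₀ hε]; linarith
    exact le_mul_of_one_le_right (by positivity) h7
  have h8 : (η / ε) ^ 4 ≤ 128 / ε ^ 4 * (δ * √δ) * (1 + x ^ 4) := by
    rw [div_pow, div_le_iff₀ (by positivity)]
    refine h3.trans ?_
    have e : 128 / ε ^ 4 * (δ * √δ) * (1 + x ^ 4) * ε ^ 4 = 128 * (δ * √δ) * (1 + x ^ 4) := by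
      field_simp
    rw [e]
    have h7 : δ ^ 2 ≤ δ * √δ := by
      rw [sq]
      have : δ ≤ √δ := by nlinarith only [hs2, hs1, hs]
      exact mul_le_mul_of_nonneg_left this hδ.le
    gcongr
  have h9 : 1352 / ε ^ 4 * (δ * √δ) * (1 + x ^ 4) =
      17 * (72 / ε ^ 4 * (δ * √δ) * (1 + x ^ 4)) + 128 / ε ^ 4 * (δ * √δ) * (1 + x ^ 4) := by
    ring
  rw [h9]
  linarith only [h6, h8]

/-- One step of the chain, bounded by a polynomial in the Gaussian variable. -/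
lemma V_poly {ε δ : ℝ} (hε : 0 < ε) (hε1 : ε ≤ 1) (hδ : 0 < δ) (hδε : δ ≤ ε ^ 2) {y : ℂ}
    (hy : ε ≤ ‖y‖) : ∃ A0 A1 A2 : ℝ, A0 + A2 ≤ 12 * δ + 4 / ε ^ 4 * (δ * √δ) ∧
      ∀ x : ℝ, V ε (y + 2 * (δ : ℂ) / y - ((2 * √δ * x : ℝ) : ℂ)) ≤
        V ε y + A0 + A1 * x + A2 * x ^ 2 + 1352 / ε ^ 4 * (δ * √δ) * (1 + x ^ 4) := by
  set p : ℝ := y.re with hp
  set q : ℝ := y.im with hq
  set r2 : ℝ := Complex.normSq y with hr2
  have hr2' : r2 = p ^ 2 + q ^ 2 := by rw [hr2, Complex.normSq_apply]; ring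
  have hεr : ε ^ 2 ≤ r2 := by
    rw [hr2, Complex.normSq_eq_norm_sq]
    exact pow_le_pow_left₀ hε.le hy 2
  have hε2 : 0 < ε ^ 2 := by positivity
  have hr0 : 0 < r2 := hε2.trans_le hεr
  set Q : ℝ := r2 + ε ^ 2 with hQ
  have hQ0 : 0 < Q := by positivity
  have hrQ : r2 ≤ Q := by rw [hQ]; linarith
  have hεQ : ε ^ 2 ≤ Q := by rw [hQ]; linarith
  have hδ1 : δ ≤ 1 := hδε.trans (pow_le_one₀ hε.le hε1)
  have hs : 0 < √δ := Real.sqrt_pos.2 hδ
  have hs2 : √δ * √δ = δ := Real.mul_self_sqrt hδ.le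
  set c : ℝ := (p ^ 2 - q ^ 2) / r2 with hc
  have hc1 : 1 + c = 2 * p ^ 2 / r2 := by
    rw [hc]
    field_simp
    rw [hr2']
    ring
  have hcr : c * r2 = p ^ 2 - q ^ 2 := by rw [hc]; field_simp
  have hcabs : c ^ 2 ≤ 1 := by
    have h1 : (c * r2) ^ 2 ≤ r2 ^ 2 := by
      rw [hcr, hr2']
      nlinarith only [mul_nonneg (sq_nonneg p) (sq_nonneg q)]
    rw [mul_pow] at h1
    have h2 : 0 < r2 ^ 2 := by positivity
    by_contra hcon
    push Not at hcon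
    nlinarith only [h1, h2, hcon]
  have hcle : c ≤ 1 := by nlinarith only [hcabs, sq_nonneg (c - 1), sq_nonneg (c + 1)]
  set d1 : ℝ := -(4 * √δ * p) - 8 * δ * √δ * p / r2 with hd1
  refine ⟨4 * δ * c + 4 * δ ^ 2 / r2 - (4 * δ * c + 4 * δ ^ 2 / r2) / (2 * Q) +
    4 * δ ^ 2 * c ^ 2 / Q ^ 2, d1 - d1 / (2 * Q) - 8 * δ * √δ * c * p / Q ^ 2,
    4 * δ - 4 * δ / (2 * Q) + 4 * δ * p ^ 2 / Q ^ 2, ?_, fun x => ?_⟩
  · have h1 : 4 * δ ^ 2 / r2 ≤ 4 * δ := by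
      rw [div_le_iff₀ hr0]
      nlinarith only [hδε, hεr, hδ, mul_le_mul_of_nonneg_left (hδε.trans hεr) hδ.le]
    have h2 : 4 * δ * c ≤ 4 * δ := by nlinarith only [hcle, hδ]
    have h3 : 0 ≤ 4 * δ ^ 2 / r2 / (2 * Q) := by positivity
    have h4 : 4 * δ ^ 2 * c ^ 2 / Q ^ 2 ≤ 4 / ε ^ 4 * (δ * √δ) := by
      have e1 : 4 * δ ^ 2 * c ^ 2 ≤ 4 * (δ * √δ) := by
        have h7 : δ ^ 2 ≤ δ * √δ := by
          rw [sq]
          have h8 : √δ ≤ 1 := Real.sqrt_le_one.2 hδ1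
          have : δ ≤ √δ := by nlinarith only [hs2, h8, hs]
          exact mul_le_mul_of_nonneg_left this hδ.le
        have h8 : 4 * δ ^ 2 * c ^ 2 ≤ 4 * δ ^ 2 * 1 :=
          mul_le_mul_of_nonneg_left hcabs (by positivity)
        linarith only [h7, h8]
      have e2 : ε ^ 4 ≤ Q ^ 2 := by
        have := pow_le_pow_left₀ hε2.le hεQ 2
        nlinarith only [this]
      have e3 : 4 * δ ^ 2 * c ^ 2 / Q ^ 2 ≤ 4 * (δ * √δ) / ε ^ 4 := by
        gcongr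
      refine e3.trans (le_of_eq ?_)
      ring
    have h5 : -(4 * δ * c / (2 * Q)) - 4 * δ / (2 * Q) + 4 * δ * p ^ 2 / Q ^ 2 ≤ 0 := by
      have e1 : 4 * δ * c / (2 * Q) + 4 * δ / (2 * Q) = 4 * δ * p ^ 2 / (r2 * Q) := by
        have : 4 * δ * c / (2 * Q) + 4 * δ / (2 * Q) = 2 * δ * (1 + c) / Q := by
          field_simp
          ring
        rw [this, hc1]
        field_simp
        ring
      have e2 : 4 * δ * p ^ 2 / Q ^ 2 ≤ 4 * δ * p ^ 2 / (r2 * Q) := by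
        apply div_le_div_of_nonneg_left (by positivity) (by positivity)
        rw [sq]
        exact mul_le_mul_of_nonneg_right hrQ hQ0.le
      linarith only [e1, e2]
    have h6 : (4 * δ * c + 4 * δ ^ 2 / r2) / (2 * Q) =
        4 * δ * c / (2 * Q) + 4 * δ ^ 2 / r2 / (2 * Q) := add_div _ _ _
    rw [h6]
    linarith only [h1, h2, h3, h4, h5]
  · set h : ℂ := 2 * (δ : ℂ) / y - ((2 * √δ * x : ℝ) : ℂ) with hh
    have hdiv : 2 * (δ : ℂ) / y = ((2 * δ / r2 : ℝ) : ℂ) * conj y := by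
      rw [div_eq_mul_inv, Complex.inv_def, ← hr2]
      push_cast
      ring
    have hre : h.re = 2 * δ / r2 * p - 2 * √δ * x := by
      rw [hh, hdiv, Complex.sub_re, Complex.re_ofReal_mul, Complex.conj_re, Complex.ofReal_re]
    have him : h.im = -(2 * δ / r2 * q) := by
      rw [hh, hdiv, Complex.sub_im, Complex.im_ofReal_mul, Complex.conj_im, Complex.ofReal_im]
      ring
    have hnorm : ‖h‖ ^ 2 = h.re ^ 2 + h.im ^ 2 := by
      rw [← Complex.normSq_eq_norm_sq, Complex.normSq_apply]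
      ring
    have hnorm2 : ‖h‖ ^ 2 = 4 * δ ^ 2 / r2 - 8 * δ * √δ * p / r2 * x + 4 * δ * x ^ 2 := by
      rw [hnorm, hre, him]
      have e : (2 * δ / r2 * p - 2 * √δ * x) ^ 2 + (-(2 * δ / r2 * q)) ^ 2 =
          4 * δ ^ 2 * (p ^ 2 + q ^ 2) / r2 ^ 2 - 8 * δ * √δ * p / r2 * x
            + 4 * (√δ * √δ) * x ^ 2 := by
        ring
      rw [e, hs2, ← hr2']
      field_simp
    have hρ : y.re * h.re + y.im * h.im = 2 * δ * c - 2 * √δ * p * x := by
      rw [hre, him, ← hp, ← hq, hc]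
      field_simp
      ring
    have herr : ‖h‖ ^ 2 ≤ 8 * δ * (1 + x ^ 2) := by
      rw [hnorm, hre, him]
      have e1 : (2 * δ / r2 * p - 2 * √δ * x) ^ 2 ≤
          2 * (2 * δ / r2 * p) ^ 2 + 2 * (2 * √δ * x) ^ 2 := by
        nlinarith only [sq_nonneg (2 * δ / r2 * p + 2 * √δ * x)]
      have e2 : (2 * √δ * x) ^ 2 = 4 * δ * x ^ 2 := by
        have : (2 * √δ * x) ^ 2 = 4 * (√δ * √δ) * x ^ 2 := by ring
        rw [this, hs2]
      have e3 : 2 * (2 * δ / r2 * p) ^ 2 + (-(2 * δ / r2 * q)) ^ 2 ≤ 8 * δ := by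
        have e4 : 2 * (2 * δ / r2 * p) ^ 2 + (-(2 * δ / r2 * q)) ^ 2 ≤
            2 * (4 * δ ^ 2 * (p ^ 2 + q ^ 2) / r2 ^ 2) := by
          have e5 : 2 * (4 * δ ^ 2 * (p ^ 2 + q ^ 2) / r2 ^ 2) =
            2 * (2 * δ / r2 * p) ^ 2 + 2 * (2 * δ / r2 * q) ^ 2 := by ring
          rw [e5]
          nlinarith only [sq_nonneg (2 * δ / r2 * q)]
        rw [← hr2'] at e4
        have e6 : 2 * (4 * δ ^ 2 * r2 / r2 ^ 2) = 8 * δ * (δ / r2) := by
          field_simp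
          ring
        have e7 : δ / r2 ≤ 1 := by
          rw [div_le_one hr0]
          exact hδε.trans hεr
        rw [e6] at e4
        exact e4.trans (mul_le_of_le_one_right (by positivity) e7)
      nlinarith only [e1, e2, e3]
    have key := V_pt hε y h
    rw [hρ, ← hr2, ← hQ, hnorm2] at key
    have hb := err_bound hε hε1 hδ hδ1 herr
    have hadd : y + 2 * (δ : ℂ) / y - ((2 * √δ * x : ℝ) : ℂ) = y + h := by
      rw [hh]
      ring
    rw [hadd]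
    refine key.trans ?_
    have hexp : V ε y + (2 * (2 * δ * c - 2 * √δ * p * x) +
        (4 * δ ^ 2 / r2 - 8 * δ * √δ * p / r2 * x + 4 * δ * x ^ 2)) -
        (2 * (2 * δ * c - 2 * √δ * p * x) +
          (4 * δ ^ 2 / r2 - 8 * δ * √δ * p / r2 * x + 4 * δ * x ^ 2)) / (2 * Q) +
        (2 * δ * c - 2 * √δ * p * x) ^ 2 / Q ^ 2 =
        V ε y + (4 * δ * c + 4 * δ ^ 2 / r2 - (4 * δ * c + 4 * δ ^ 2 / r2) / (2 * Q) +
          4 * δ ^ 2 * c ^ 2 / Q ^ 2) +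
        (d1 - d1 / (2 * Q) - 8 * δ * √δ * c * p / Q ^ 2) * x +
        (4 * δ - 4 * δ / (2 * Q) + 4 * (√δ * √δ) * p ^ 2 / Q ^ 2) * x ^ 2 := by
      rw [hd1]
      ring
    rw [hs2] at hexp
    linarith only [hb, hexp]

/-- The fourth absolute moment of the standard Gaussian. -/
noncomputable def M4 : ℝ := ∫ x, x ^ 4 ∂(gaussianReal 0 1)

lemma integrable_pow_gauss (k : ℕ) : Integrable (fun x : ℝ => x ^ k) (gaussianReal 0 1) := by
  have h2 : Integrable (fun x : ℝ => |x| ^ k) (gaussianReal 0 1) := by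
    simpa only [id_eq, Real.norm_eq_abs] using
      (memLp_id_gaussianReal (μ := 0) (v := 1) (k : ℝ≥0)).integrable_norm_pow'
  refine h2.mono' (by fun_prop) (ae_of_all _ fun x => ?_)
  rw [Real.norm_eq_abs, abs_pow]

lemma M4_nonneg : 0 ≤ M4 := integral_nonneg fun x => by positivity

lemma integral_sq_gauss : ∫ x, x ^ 2 ∂(gaussianReal 0 1) = 1 := by
  have h := variance_fun_id_gaussianReal (μ := 0) (v := 1)
  rw [variance_eq_integral (by fun_prop)] at h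
  simpa [integral_id_gaussianReal] using h

/-- **The integrated one-step estimate.** -/
theorem V_int {ε δ : ℝ} (hε : 0 < ε) (hε1 : ε ≤ 1) (hδ : 0 < δ) (hδε : δ ≤ ε ^ 2) {y : ℂ}
    (hy : ε ≤ ‖y‖) :
    ∫⁻ x, ENNReal.ofReal (V ε (y + 2 * (δ : ℂ) / y - ((2 * √δ * x : ℝ) : ℂ)))
      ∂(gaussianReal 0 1) ≤
    ENNReal.ofReal (V ε y + (12 * δ + (4 + 1352 * (1 + M4)) / ε ^ 4 * (δ * √δ))) := by
  obtain ⟨A0, A1, A2, hA, hpt⟩ := V_poly hε hε1 hδ hδε hy
  set K : ℝ := 1352 / ε ^ 4 * (δ * √δ) with hK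
  have i1 : Integrable (fun x : ℝ => x) (gaussianReal 0 1) := by
    simpa using integrable_pow_gauss 1
  have i2 := integrable_pow_gauss 2
  have i4 := integrable_pow_gauss 4
  have hint : Integrable (fun x : ℝ => V ε y + A0 + A1 * x + A2 * x ^ 2 + K * (1 + x ^ 4))
      (gaussianReal 0 1) :=
    (((integrable_const _).add (i1.const_mul _)).add (i2.const_mul _)).add
      (((integrable_const _).add i4).const_mul _)
  have hval : ∫ x, (V ε y + A0 + A1 * x + A2 * x ^ 2 + K * (1 + x ^ 4)) ∂(gaussianReal 0 1) =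
      V ε y + A0 + A2 + K * (1 + M4) := by
    rw [integral_add, integral_add, integral_add, integral_const, integral_const_mul,
      integral_const_mul, integral_const_mul, integral_add, integral_const, integral_sq_gauss,
      integral_id_gaussianReal, ← M4]
    · simp
    · exact integrable_const _
    · exact i4
    · exact integrable_const _
    · exact i1.const_mul _
    · exact (integrable_const _).add (i1.const_mul _)
    · exact i2.const_mul _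
    · exact ((integrable_const _).add (i1.const_mul _)).add (i2.const_mul _)
    · exact ((integrable_const _).add i4).const_mul _
  calc ∫⁻ x, ENNReal.ofReal (V ε (y + 2 * (δ : ℂ) / y - ((2 * √δ * x : ℝ) : ℂ)))
      ∂(gaussianReal 0 1) ≤
      ∫⁻ x, ENNReal.ofReal (V ε y + A0 + A1 * x + A2 * x ^ 2 + K * (1 + x ^ 4))
        ∂(gaussianReal 0 1) := lintegral_mono fun x => ENNReal.ofReal_le_ofReal (hpt x)
    _ = ENNReal.ofReal (V ε y + A0 + A2 + K * (1 + M4)) := by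
      rw [← hval, ofReal_integral_eq_lintegral_ofReal hint]
      exact ae_of_all _ fun x => (V_nonneg hε hε1 _).trans (hpt x)
    _ ≤ _ := by
      apply ENNReal.ofReal_le_ofReal
      have e : (4 + 1352 * (1 + M4)) / ε ^ 4 * (δ * √δ) =
        4 / ε ^ 4 * (δ * √δ) + K * (1 + M4) := by rw [hK]; ring
      rw [e]
      linarith only [hA]

end Vale.Agent.P153.BESS
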