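import Vale.Agent.P164.Defs

/-! # P153, block BESS: the chain driven by `W = 2B` swallows no fixed point

`CSol W z T g`: `g` solves the Loewner equation `g' = 2/(g - W)`, `g 0 = z`, on `[0,T]`, and never
meets `W` there.  The starting point may be real or complex, there is no half-plane condition. -/

namespace Vale.Agent.P153.BESS

open MeasureTheory ProbabilityTheory Set Vale.Agent.P164
open scoped NNReal ENNReal

/-- Solution of the Loewner equation on `[0,T]` which stays away from the driving function. -/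
def CSol (W : ℝ → ℝ) (z : ℂ) (T : ℝ) (g : ℝ → ℂ) : Prop :=
  g 0 = z ∧ ∀ s ∈ Icc 0 T, g s ≠ (W s : ℂ) ∧
    HasDerivWithinAt g (2 / (g s - (W s : ℂ))) (Icc 0 T) s

/-- Real solution of the Loewner equation on `[0,T]` which stays away from the driving function. -/
def RSol (W : ℝ → ℝ) (x T : ℝ) (y : ℝ → ℝ) : Prop :=
  y 0 = x ∧ ∀ s ∈ Icc 0 T, y s ≠ W s ∧ HasDerivWithinAt y (2 / (y s - W s)) (Icc 0 T) s

/-- The driver of SLE_4: `W = 2B` on `[0,∞)`, almost surely. -/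
def IsDriver4 {Ω : Type*} [MeasurableSpace Ω] (P : Measure Ω) (W : Ω → ℝ → ℝ) : Prop :=
  ∃ B : ℝ≥0 → Ω → ℝ, IsBrownianReal B P ∧ ∀ᵐ ω ∂P, ∀ t : ℝ, 0 ≤ t → W ω t = 2 * B t.toNNReal ω

/-- The driver of the chain restarted at time `s`, recentred (= `P164.shiftW s W`). -/
def sh (s : ℝ) (W : ℝ → ℝ) : ℝ → ℝ := fun u => W (s + u) - W s

/-- No fixed point is swallowed. -/
def S_alive : Prop := ∀ {Ω : Type} [MeasurableSpace Ω] (P : Measure Ω) (W : Ω → ℝ → ℝ),
  IsDriver4 P W → ∀ z : ℂ, z ≠ 0 → ∀ᵐ ω ∂P, ∀ T : ℝ, ∃ g, CSol (W ω) z T g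

/-- (P2) No point of a countable set is swallowed by any of the chains restarted at a rational
time. -/
def S_P2 : Prop := ∀ {Ω : Type} [MeasurableSpace Ω] (P : Measure Ω) (W : Ω → ℝ → ℝ),
  IsDriver4 P W → ∀ D : Set ℂ, D.Countable → (∀ z ∈ D, 0 < z.im) →
    ∀ᵐ ω ∂P, ∀ s : ℚ, 0 ≤ s → ∀ z ∈ D, ∀ t : ℝ, z ∈ loewnerDomain (sh s (W ω)) t

/-- (P1) No real point except the starting point of the driver is swallowed by any of the chains
restarted at a rational time: all real points at once. -/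
def S_P1 : Prop := ∀ {Ω : Type} [MeasurableSpace Ω] (P : Measure Ω) (W : Ω → ℝ → ℝ),
  IsDriver4 P W → ∀ᵐ ω ∂P, ∀ s : ℚ, 0 ≤ s → ∀ x : ℝ, x ≠ 0 → ∀ T : ℝ,
    ∃ y, RSol (sh s (W ω)) x T y

/-- (P1) in hull form: a real point other than the starting point of the driver has a complex
neighbourhood which is not touched by the hull. -/
def S_P1hull : Prop := ∀ {Ω : Type} [MeasurableSpace Ω] (P : Measure Ω) (W : Ω → ℝ → ℝ),
  IsDriver4 P W → ∀ᵐ ω ∂P, ∀ s : ℚ, 0 ≤ s → ∀ x : ℝ, x ≠ 0 → ∀ T : ℝ,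
    ∃ r > 0, ∀ z : ℂ, 0 < z.im → ‖z - x‖ < r → z ∈ loewnerDomain (sh s (W ω)) T

/-- (F1) openness of the set of surviving starting points (real or complex). -/
def S_open : Prop := ∀ (W : ℝ → ℝ) (T : ℝ), 0 ≤ T → ContinuousOn W (Icc 0 T) → ∀ z g,
  CSol W z T g → ∃ r > 0, ∀ z' : ℂ, ‖z' - z‖ < r → ∃ g', CSol W z' T g'

/-- (F2) a solution started in the half-plane stays there. -/
def S_half : Prop := ∀ (W : ℝ → ℝ) (T : ℝ), ContinuousOn W (Icc 0 T) → ∀ z g,
  CSol W z T g → 0 < z.im → IsLoewnerSol W z T g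

/-- (F3) a solution started on the real line stays there. -/
def S_real : Prop := ∀ (W : ℝ → ℝ) (T : ℝ), ContinuousOn W (Icc 0 T) → ∀ (x : ℝ) g,
  CSol W x T g → RSol W x T (fun s => (g s).re)

/-- (F4) monotonicity on the right and on the left of the driver. -/
def S_mono : Prop := ∀ (W : ℝ → ℝ) (T : ℝ), 0 ≤ T → ContinuousOn W (Icc 0 T) → ∀ (x x' : ℝ) y,
  RSol W x T y → (W 0 < x ∧ x ≤ x' ∨ x' ≤ x ∧ x < W 0) → ∃ y', RSol W x' T y'

end Vale.Agent.P153.BESS
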